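import Vale.Agent.P144A.Ind
import Vale.Agent.P144Z.M.Main

/-!
The canonical constants and their analyticity.
-/

namespace Vale.Agent.P144Z.AN

open Finset Matrix Geo FM Filter Topology

/-- Two spins at the distance `16 * sc L J`. -/
noncomputable abbrev gs (L J M : ℕ) : Geo :=
  geoM (M + 1) ![((0, 0) : ℤ × ℤ), (2 * (8 * sc L J : ℕ), 0)] (![] : Fin 0 → ℤ × ℤ) ![] J

/-- The constants that see the first spin. -/
noncomputable def sr (L : ℕ) (q : Par) (p : ℕ × ℕ) : ℝ :=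
  Mn.ss (gs L p.1 p.2) (sec (p.2 + 1) AA) L q p.1 (prj (p.2 + 1) (0, 0)) (8 * sc L p.1 / 20)

/-- The iterated limit. -/
def itl : Filter (ℕ × ℕ) := atTop.curry atTop

instance : itl.NeBot := ⟨fun h => by
  have : ∀ᶠ _p in itl, False := h ▸ eventually_bot
  exact (eventually_curry_iff.1 this).exists.elim fun _ h => h.exists.elim fun _ => id⟩

/-- The logarithm of the spin renormalisation. -/
noncomputable def sg (L : ℕ) (q : Par) : ℝ := limUnder itl (sr L q)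

/-- The energy renormalisation. -/
noncomputable def ze (L : ℕ) (q : Par) : ℝ := limUnder atTop (zr L q) / (-2 * tc)

/-- The two limits exist. -/
def Ch (L : ℕ) (q : Par) : Prop :=
  Tendsto (zr L q) atTop (𝓝 (ze L q * (-2 * tc))) ∧ Tendsto (sr L q) itl (𝓝 (sg L q))

theorem pos_gs (r : ℕ) (hr : 0 < r) :
    Pos ![((0, 0) : ℤ × ℤ), (2 * r, 0)] (![] : Fin 0 → ℤ × ℤ) 2 r :=
  ⟨fun i => by fin_cases i <;> simp [zd] <;> omega, fun k => k.elim0,
    fun i i' h => by fin_cases i <;> fin_cases i' <;> simp [zd] at h ⊢ <;> omega,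
    fun _ k => k.elim0, fun k => k.elim0⟩

variable {T : Nd} {g : Geo} {L R J : ℕ} {q : T.ι → Par} {h : ℕ → ℝ} {δ : ℝ}

theorem sigT [IsEmpty g.K] (hL : 4 ≤ L) (hδ : 0 < δ) (hp : Pre L R g J h)
    (H : EOutT T g L q J h δ δ) (f : g.P) (r : ℕ) :
    T.n abs (fun i => ∑ j ∈ range (J + 1), g.sig L (q i) j f r) ≤ 1600 * δ * 3 := by
  have ne : ∀ U, ¬ g.Exc U := fun U ⟨k, _⟩ => isEmptyElim k
  have hL1 : 1 ≤ L := by omega
  have key : ∀ (ℓ ℓ' : ℕ) (h β ε : ℝ) (F : T.ι → Finset g.P → g.E), R8.Ad g ℓ h β → 1 ≤ ℓ' →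
      (∀ i U, F i U ∈ g.sub U) → Anch ℓ' (2 * L) (fun U => PN T g ℓ h β U fun i => F i U) ε →
      T.n abs (fun i => ∑ U ∈ univ.filter (fun U : Finset g.P =>
        stein U ≤ r ∧ ∃ x ∈ U, tdist f x ≤ 2 * stein U + 3 * ℓ'),
          aug (Ev.val (g.noF (F i U)))) ≤ 1600 * ε := fun ℓ ℓ' h β ε F a h1 hF hA => by
    refine (Nd.sn_abs.sum' _ _).trans ((sum_le_sum fun U _ => ?_).trans (Mn.near_sum h1 (by
      have : (4 : ℝ) ≤ L := by exact_mod_cast hL
      linarith) (fun _ => PN_nonneg _ _) hA f _ fun U hU => (mem_filter.1 hU).2.2))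
    exact tr0 (g.sub U).toSubmodule (fun i => hF i U) (A := fun F => aug (Ev.val (g.noF F)))
      ⟨fun _ _ => by simp only [map_add], fun _ _ => by simp only [map_smul]⟩ fun F hF =>
        (RN.abs_aug_le_pn a.l a.h a.b _).trans (RN.pn_noF a.l a.h a.b hF)
  simp only [sum_range_succ']
  refine (Nd.sn_abs.add' _ _).trans ?_
  have h0 := hp.pos hL1 0
  have b0 := key 8 8 _ (δ * (8 : ℕ) / h 0 ^ 2) _ (fun i => g.W0 (q i))
    ⟨hp.ok.sign, by norm_num, h0, by positivity⟩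
    (by norm_num) (fun i => W0_mem hp.ok _) (by simpa only [Wsrc_eq _ (ne _), sub_zero] using H.W0)
  have b1 : ∀ j ∈ range J, T.n abs (fun i => g.sig L (q i) (j + 1) f r) ≤ 1600 * δ * (1 / 2 ^ j) :=
    fun j hj => by
      have h1 := hp.pos hL1 j
      have h2 := H.intg j (mem_range.1 hj)
      simp only [intg_src hL1 hp (mem_range.1 hj) _ (ne _), sub_zero] at h2
      simp only [sig, cs_succ]
      exact (key _ _ _ _ _ (fun i => g.intg (sc L j) (L * sc L j) (g.flow L (q i) 0 j))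
        ⟨hp.ok.sign, by have := eight_le_sc hL1 j; omega, by positivity, beta_pos hL1 hδ h1 j⟩
        (by have := eight_le_sc hL1 (j + 1); omega) (fun i =>
          (wf_flow hp.ok L _ 0 j).Cl_mem (covP_anti (C.Dm_anti _) _ _)) h2).trans_eq (by ring)
  have b2 := (Nd.sn_abs.sum' _ _).trans (sum_le_sum b1)
  rw [← mul_sum] at b2
  have b3 := mul_le_mul_of_nonneg_left (Mn.geo_all J) (by positivity : 0 ≤ 1600 * δ)
  refine (add_le_add (b2.trans b3) (le_of_eq_of_le rfl b0)).trans_eq (by ring)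

theorem CritT.mono {V : Finset (ℤ × ℤ) → ℝ} {η η' : ℝ} (hL : 1 ≤ L) (H : CritT L V R T q η δ)
    (h : η ≤ η') : CritT L V R T q η' δ := by
  obtain ⟨c, hc⟩ := H.bulk
  have m := fun j => mul_le_mul_of_nonneg_right h (pow_pos (R7.th_pos hL) j).le
  exact { H with
    bulk := ⟨c, fun j => ⟨(hc j).1.trans (m j), fun M _ h1 h2 =>
      ((hc j).2 M h1 h2).imp_right fun k => anch_le k (m j)⟩⟩
    c1 := H.c1.trans h
    c2 := H.c2.trans h }

/-- The critical parameters and the two constants are analytic in the coupling. -/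
theorem ana : ∃ L₀ : ℕ, ∀ L ≥ L₀, ∃ η₀ > 0, ∀ η, 0 < η → η ≤ η₀ →
    ∀ (V : Finset (ℤ × ℤ) → ℝ) (R : ℕ), P144.IsPotential V →
    (∀ B, V B ≠ 0 → (0, 0) ∈ B → B ∈ potSets R) → ∀ δ > 0, ∃ κ₀ > 0,
      (∀ κ : ℝ, |κ| < κ₀ → Crit L (qc L V R κ) η δ) ∧
      AnalyticOnNhd ℝ (fun κ => (qc L V R κ).x) (Set.Ioo (-κ₀) κ₀) ∧
      ((∀ κ : ℝ, |κ| < κ₀ → Ch L (qc L V R κ)) →
        AnalyticOnNhd ℝ (fun κ => ze L (qc L V R κ)) (Set.Ioo (-κ₀) κ₀) ∧
        AnalyticOnNhd ℝ (fun κ => sg L (qc L V R κ)) (Set.Ioo (-κ₀) κ₀)) := by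
  obtain ⟨L₀, hB⟩ := bulkT
  obtain ⟨L₁, hE⟩ := early_allT
  refine ⟨max (max L₀ L₁) 4, fun L hL => ?_⟩
  simp only [ge_iff_le, max_le_iff] at hL
  obtain ⟨⟨l0, l1⟩, l2⟩ := hL
  have hL1 : 1 ≤ L := by omega
  obtain ⟨η₀, η0, hB⟩ := hB L l0
  obtain ⟨δ₁, δ1, η₁, η1, hE⟩ := hE L l1
  refine ⟨η₀, η0, fun η h0 h1 V R hV hR δ hδ => ?_⟩
  obtain ⟨δ₀, δ0, hE⟩ := hE R
  obtain ⟨κ₀, κ0, hc, -⟩ := hB η h0 h1 V R hV hR δ hδ
  obtain ⟨κ₁, κ1, -, hT⟩ := hB (min η₀ η₁) (by positivity) (min_le_left _ _) V R hV hR δ₀ δ0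
  replace hT := fun (T : Nd) (a : T.ρ = κ₁) (b : ∀ i, |T.x i| < min κ₀ κ₁) =>
    (hT T a.le fun i => (b i).trans_le (min_le_right _ _)).mono hL1 (min_le_right _ _)
  refine ⟨min κ₀ κ₁, by positivity, fun κ hκ => hc κ (hκ.trans_le (min_le_left _ _)),
    Nd.analytic κ1 fun T a b => (hT T a b).x, fun hC => ⟨?_, ?_⟩⟩
  · have t : -2 * tc ≠ 0 := by have := tc_lo; linarith
    have := (Nd.analytic (f := fun κ => ze L (qc L V R κ) * (-2 * tc)) κ1 fun T a b =>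
      Nd.le_of_lim continuous_abs (fun i => (hC _ (b i)).1) (Eventually.of_forall fun j =>
        (hE V T _ hV (hT T a b) _ _ _ (pre_gr hL1 R j)).z j le_rfl ())).div_const (c := -2 * tc)
    simpa only [mul_div_cancel_right₀ _ t] using this
  refine Nd.analytic (C := 1600 * δ₁ * 3 + 1600 * δ₁ * 3) κ1 fun T a b =>
    Nd.le_of_lim continuous_abs (fun i => (hC _ (b i)).2) (eventually_curry_iff.2
      (Eventually.of_forall fun J => ?_))
  filter_upwards [eventually_ge_atTop (16 * (R + 1) + 8 * (2 * (8 * sc L J) + 1))] with M hM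
  have h8 := eight_le_sc hL1 J
  obtain ⟨s1, s2, -⟩ := geoM_spec (M := M + 1) (by norm_num) ![] J
    (pos_gs (8 * sc L J) (by omega)) (by omega)
  have p := pre_gr hL1 R J
  have p1 : Pre L R (gs L J M) J fun _ => (L : ℝ) ^ 2 := { p with
    ok := s1, on := fun k => k.elim0, J_le := le_rfl, sep := s2
    M_le := by change _ ≤ M + 1; omega
    R_le := by change _ ≤ M + 1; omega }
  have nb := Mn.nice_bare (g := gs L J M) (N := 0) (Λ := 0) (r := 8 * sc L J) (sec_sign AA)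
    (sec_flat AA) (sec_anti (by simp [AA]))
  have p2 : Pre L R (Mn.bare (gs L J M) (sec (M + 1) AA)) J fun _ => (L : ℝ) ^ 2 := { p1 with
    ok := nb.ok, on := nb.on, sep := nb.sep }
  have : IsEmpty (gs L J M).K := inferInstanceAs (IsEmpty (Fin 0))
  have : IsEmpty (Mn.bare (gs L J M) (sec (M + 1) AA)).K := inferInstanceAs (IsEmpty Empty)
  simp only [sr, Mn.ss, sum_sub_distrib]
  exact (Nd.sn_abs.sub' _ _).trans (add_le_add
    (sigT l2 δ1 p1 (hE V T _ hV (hT T a b) _ _ _ p1) _ _)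
    (sigT l2 δ1 p2 (hE V T _ hV (hT T a b) _ _ _ p2) _ _))

end Vale.Agent.P144Z.AN
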