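import Vale.Agent.P144A.Fam
import Vale.Agent.P144Z.R8.Main
import Vale.Agent.P144Z.R7.Step

/-!
Families of elements of the local algebras, and one integration for families.
-/

namespace Vale.Agent.P144Z.AN

open Finset Matrix Geo R8

section Lin

variable {U V W : Type} [AddCommGroup U] [Module ℝ U] [AddCommGroup V] [Module ℝ V]
  [AddCommGroup W] [Module ℝ W]

theorem lin_id : IsLinearMap ℝ fun u : U => u := LinearMap.id.isLinear

theorem lin_comp {A : V → W} {B : U → V} (hA : IsLinearMap ℝ A) (hB : IsLinearMap ℝ B) :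
    IsLinearMap ℝ fun u => A (B u) := ((hA.mk' A).comp (hB.mk' B)).isLinear

theorem lin_sub {A B : U → V} (hA : IsLinearMap ℝ A) (hB : IsLinearMap ℝ B) :
    IsLinearMap ℝ fun u => A u - B u := (hA.mk' A - hB.mk' B).isLinear

theorem lin_smul {A : U → V} (hA : IsLinearMap ℝ A) (c : ℝ) :
    IsLinearMap ℝ fun u => c • A u := (c • hA.mk' A).isLinear

theorem lin_sum {κ : Type} (s : Finset κ) {A : κ → U → V} (hA : ∀ k, IsLinearMap ℝ (A k)) :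
    IsLinearMap ℝ fun u => ∑ k ∈ s, A k u :=
  ⟨fun u v => by simp only [(hA _).map_add, sum_add_distrib],
    fun c u => by simp only [(hA _).map_smul, smul_sum]⟩

theorem lin_eval {κ : Type} (k : κ) : IsLinearMap ℝ fun u : κ → V => u k :=
  (LinearMap.proj (R := ℝ) (φ := fun _ : κ => V) k).isLinear

variable {T : Nd} {φ : V → ℝ} {ψ : W → ℝ}

/-- The transfer of an estimate between two linear maps. -/
theorem tr2 (S : Submodule ℝ U) {f : T.ι → U} (hf : ∀ i, f i ∈ S) {A : U → V} {B : U → W}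
    (hA : IsLinearMap ℝ A) (hB : IsLinearMap ℝ B) {w c : ℝ} (hw : 0 ≤ w) (hc : 0 ≤ c)
    (h : ∀ u ∈ S, φ (A u) * w ≤ c * ψ (B u)) :
    T.n φ (fun i => A (f i)) * w ≤ c * T.n ψ (fun i => B (f i)) :=
  (Nd.tr' S hf (hA.mk' A) hw hc h).trans_eq (congrArg _ (Nd.map (hB.mk' B) f).symm)

theorem tr1 (S : Submodule ℝ W) {f : T.ι → W} (hf : ∀ i, f i ∈ S) {A : W → V}
    (hA : IsLinearMap ℝ A) {c : ℝ} (hc : 0 ≤ c) (h : ∀ u ∈ S, φ (A u) ≤ c * ψ u) :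
    T.n φ (fun i => A (f i)) ≤ c * T.n ψ f := Nd.tr S hf (hA.mk' A) hc h

theorem tr0 (S : Submodule ℝ W) {f : T.ι → W} (hf : ∀ i, f i ∈ S) {A : W → V}
    (hA : IsLinearMap ℝ A) (h : ∀ u ∈ S, φ (A u) ≤ ψ u) :
    T.n φ (fun i => A (f i)) ≤ T.n ψ f := (Nd.map (hA.mk' A) f).trans_le (Nd.mono S hf h)

end Lin

variable {g : Geo} {T : Nd} {ℓ ℓ' j : ℕ} {h β : ℝ}

theorem lin_dp (X : Finset g.P) : IsLinearMap ℝ (g.dp ℓ X) := by
  unfold Geo.dp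
  split_ifs
  exacts [lin_sub lin_id g.noB.isLinear, lin_id]

theorem lin_bp (X : Finset g.P) : IsLinearMap ℝ (bp g ℓ X) := by
  unfold bp
  split_ifs
  exacts [g.noB.isLinear, (0 : g.E →ₗ[ℝ] g.E).isLinear]

theorem lin_Lin (C : Matrix (Tor g.M × Fin 4) (Tor g.M × Fin 4) ℝ) : IsLinearMap ℝ (g.Lin C) :=
  lin_sub (evG _).isLinear (lin_comp g.noF.isLinear (evG _).isLinear)

theorem lin_Ext (x : g.P) : IsLinearMap ℝ (g.Ext x) := ⟨Ext_add x, Ext_smul x⟩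

theorem lin_zt (k : g.K) : IsLinearMap ℝ (g.zt k) := ⟨zt_add k, zt_smul k⟩

theorem lin_xtr (U : Finset g.P) : IsLinearMap ℝ (g.xtr j ℓ ℓ' U) := by
  refine ⟨xtr_add U, fun c F => ?_⟩
  unfold Geo.xtr
  split_ifs
  · simp only [Ext_smul, zt_smul, smul_add, ← smul_sum, mul_smul]
    rw [smul_comm c]
  · simp only [zt_smul, smul_add, ← smul_sum, mul_smul, smul_zero]

/-- The norm of a family of local elements. -/
noncomputable def PN (T : Nd) (g : Geo) (ℓ : ℕ) (h β : ℝ) (X : Finset g.P) (F : T.ι → g.E) : ℝ :=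
  T.n (g.pn ℓ h β X) F

theorem PN_nonneg (X : Finset g.P) (F : T.ι → g.E) : 0 ≤ PN T g ℓ h β X F := Nd.nonneg _ _

theorem sn (a : Ad g ℓ h β) (X : Finset g.P) : Nd.Sn (g.pn ℓ h β X) := ⟨a.add X, a.smul X⟩

section Ad

variable (a : Ad g ℓ h β) {X : Finset g.P}
include a

theorem PN_add (F G : T.ι → g.E) :
    PN T g ℓ h β X (fun i => F i + G i) ≤ PN T g ℓ h β X F + PN T g ℓ h β X G := (sn a X).add' F G

theorem PN_sub (F G : T.ι → g.E) :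
    PN T g ℓ h β X (fun i => F i - G i) ≤ PN T g ℓ h β X F + PN T g ℓ h β X G := (sn a X).sub' F G

theorem PN_smul (c : ℝ) (F : T.ι → g.E) :
    PN T g ℓ h β X (fun i => c • F i) = |c| * PN T g ℓ h β X F := (sn a X).smul' c F

theorem PN_zero : PN T g ℓ h β X (fun _ => 0) = 0 := (sn a X).zero'

theorem PN_sum {κ : Type} (s : Finset κ) (F : κ → T.ι → g.E) :
    PN T g ℓ h β X (fun i => ∑ k ∈ s, F k i) ≤ ∑ k ∈ s, PN T g ℓ h β X (F k) := (sn a X).sum' s F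

theorem PN_scal (c : T.ι → ℝ) (F : g.E) :
    PN T g ℓ h β X (fun i => c i • F) ≤ T.n abs c * g.pn ℓ h β X F := (sn a X).scal c F

variable {F : T.ι → g.E} (hF : ∀ i, F i ∈ g.sub X)
include hF

theorem PN_noF : PN T g ℓ h β X (fun i => F i - g.noF (F i)) ≤ 2 * PN T g ℓ h β X F :=
  tr1 (g.sub X).toSubmodule hF (lin_sub lin_id g.noF.isLinear) zero_le_two fun _ hv => a.sub_noF hv

theorem PN_dp (ℓ₁ : ℕ) (Y : Finset g.P) :
    PN T g ℓ h β X (fun i => g.dp ℓ₁ Y (F i)) ≤ 2 * PN T g ℓ h β X F :=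
  tr1 (g.sub X).toSubmodule hF (lin_dp Y) zero_le_two fun _ hv => a.dp hv ℓ₁ Y

theorem PN_half : PN T g ℓ (h / 2) β X F ≤ PN T g ℓ h β X F :=
  Nd.mono (g.sub X).toSubmodule hF fun _ hv => a.half_le hv

end Ad

/-- One integration with a covariance of range `ℓ'`, for families. -/
theorem step_clT (τ : ℝ) (hτ : 1 ≤ τ) (𝓛 : ℕ) : ∃ C : ℝ, 1 ≤ C ∧ ∀ (T : Nd) (g : Geo),
    ∀ ℓ ℓ' : ℕ, 1 ≤ ℓ → 4 * ℓ ≤ ℓ' → ℓ' ≤ 𝓛 * ℓ →
    ∀ Cm : Matrix (Tor g.M × Fin 4) (Tor g.M × Fin 4) ℝ, Cmᵀ = -Cm →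
    (∀ s s', ℓ' < tdist s.1 s'.1 → Cm s s' = 0) → ∀ c h β : ℝ, GramLe (Dm g.A) Cm ℓ c → 0 ≤ c →
    4 * c ≤ h → 0 < h → 0 < β →
    ∀ H H' : T.ι → Finset g.P → g.E, (∀ i, H i ∅ = 0) → (∀ i, H' i ∅ = 0) →
    (∀ i X, H i X ∈ g.sub X) → (∀ i X, H' i X ∈ g.sub X) →
    ∀ ε ε' : ℝ, C * ε ≤ 1 → Anch ℓ τ (fun X => PN T g ℓ h β X fun i => H i X) ε →
      Anch ℓ τ (fun X => PN T g ℓ h β X fun i => H' i X) ε →
      Anch ℓ τ (fun X => PN T g ℓ h β X fun i => H i X - H' i X) ε' →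
      Anch ℓ' (2 * τ) (fun U => PN T g ℓ (h / 2) β U fun i =>
        (Cl (evG (g.exM Cm)) (H i) U - evG (g.exM Cm) (H i U))
        - (Cl (evG (g.exM Cm)) (H' i) U - evG (g.exM Cm) (H' i U))) (C * ε * ε') ∧
      Anch ℓ' (2 * τ) (fun U => PN T g ℓ (h / 2) β U fun i =>
        Cl (evG (g.exM Cm)) (H i) U - Cl (evG (g.exM Cm)) (H' i) U) (C * ε') := by
  obtain ⟨D, hD⟩ : ∃ D : ℝ, D = 50 * ((𝓛 : ℝ) + 1) ^ 2 * Real.exp (2 * τ + 2) := ⟨_, rfl⟩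
  have hD1 : 1 ≤ D := by
    have h1 : (1 : ℝ) ≤ ((𝓛 : ℝ) + 1) ^ 2 :=
      one_le_pow₀ (le_add_of_nonneg_left (Nat.cast_nonneg _))
    have h2 : 1 ≤ Real.exp (2 * τ + 2) := Real.one_le_exp (by linarith)
    rw [hD]
    exact one_le_mul_of_one_le_of_one_le (by linarith) h2
  refine ⟨1000 * D ^ 2, by nlinarith, fun T g ℓ ℓ' hℓ h4 hL Cm hC hr c h β hG hc hch hh hβ
    H H' h0 h0' hH hH' ε ε' hε hA hA' hd => ?_⟩
  have h1 : 1 ≤ ℓ' := by omega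
  have hh2 : 0 < h / 2 := half_pos hh
  have hhc : h / 2 + 2 * c ≤ h := by linarith
  have hE := Nd.isExp_fam (T := T) (RN.isExp_evG hC hℓ hG hc hh hh2 hhc hβ (RN.szAt g.M ℓ' h1)
    fun s s' hs => hr s s' (not_le.1 hs))
  have hq : (ℓ' : ℝ) ≤ ((𝓛 : ℝ) + 1) * ℓ := by
    have : ℓ' ≤ (𝓛 + 1) * ℓ := hL.trans (Nat.mul_le_mul_right _ (Nat.le_succ _))
    exact_mod_cast this
  have hε0 : 0 ≤ ε := G.anch_nonneg (fun _ => PN_nonneg _ _) hA
  have hε0' : 0 ≤ ε' := G.anch_nonneg (fun _ => PN_nonneg _ _) hd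
  have l1 := R2.le_of_anch hℓ h4 h1 hτ hq (fun _ => PN_nonneg _ _) hA
  have l2 := R2.le_of_anch hℓ h4 h1 hτ hq (fun _ => PN_nonneg _ _) hA'
  have l3 := R2.le_of_anch hℓ h4 h1 hτ hq (fun _ => PN_nonneg _ _) hd
  rw [← hD] at l1 l2 l3
  have hτ2 : 0 ≤ 2 * τ := by linarith
  have hDε : D * ε ≤ 1 / 48 := by nlinarith [mul_nonneg (zero_le_one.trans hD1) hε0]
  have inj := Nd.inj_fam (T := T) (exp_ev_injective (S := g.S))
  have pt : ∀ K : T.ι → Finset g.P → g.E, (∀ i, K i ∅ = 0) → (∀ i X, K i X ∈ g.sub X) →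
      (RN.szAt g.M ℓ' h1).Le (2 * τ + 0 + 2) (fun X => PN T g ℓ h β X fun i => K i X) (D * ε) →
      ∀ U, Cl ((evG (g.exM Cm)).compLeft T.ι) (fun X i => K i X) U =
        fun i => Cl (evG (g.exM Cm)) (K i) U := fun K k0 kH kl U => funext fun i =>
    Nd.Cl_apply exp_ev_injective (cl_main inj _ _ _ le_rfl hτ2 hE (H := fun X i => K i X)
      (funext k0) (fun X => Nd.mem_fam.2 fun i => kH i X) (by linarith) kl).2.2.2 i
      (Pi.evalAlgHom ℝ _ i) (continuous_apply i) _ (fun _ => rfl) U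
  have m2 := R2.anch_of_le h1 hτ2 (fun _ => PN_nonneg _ _)
    (cl_rem inj _ _ _ le_rfl hτ2 hE (H := fun X i => H i X) (H' := fun X i => H' i X) (funext h0)
      (funext h0') (fun X => Nd.mem_fam.2 fun i => hH i X) (fun X => Nd.mem_fam.2 fun i => hH' i X)
      hDε l1 l2 l3)
  simp only [pt H h0 hH l1, pt H' h0' hH' l2] at m2
  have m3 := R2.anch_of_le h1 hτ2 (fun _ => PN_nonneg _ _)
    (R2.le_mono (fun _ => PN_nonneg _ _) l3 (by linarith))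
  have e : 1000 * (D * ε) * (D * ε') = 1000 * D ^ 2 * ε * ε' := by ring
  rw [e] at m2
  refine ⟨m2, R2.anch_mono (R2.anch_add m2 m3) (fun U => ?_) ?_⟩
  · have e2 : (fun i => Cl (evG (g.exM Cm)) (H i) U - Cl (evG (g.exM Cm)) (H' i) U) = fun i =>
        ((Cl (evG (g.exM Cm)) (H i) U - evG (g.exM Cm) (H i U)) - (Cl (evG (g.exM Cm)) (H' i) U -
          evG (g.exM Cm) (H' i U))) + evG (g.exM Cm) (H i U - H' i U) := funext fun i => by
      rw [map_sub]; ring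
    rw [e2]
    refine (Nd.addf (RN.pn_add hℓ hh2 hβ) _ _).trans (add_le_add le_rfl ?_)
    exact tr0 (g.sub U).toSubmodule (fun i => sub_mem (hH i U) (hH' i U)) (evG _).isLinear
      fun F hF => RN.pn_evG hC hℓ hG hc hh2 hhc hβ hF
  · have := mul_le_mul_of_nonneg_right hε hε0'
    have h3 : 1 + D ≤ 1000 * D ^ 2 := by nlinarith
    have := mul_le_mul_of_nonneg_right h3 hε0'
    linarith

/-- One integration of the flow, for families. -/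
theorem cl_PT : ∃ L₀ : ℕ, ∀ L ≥ L₀, ∃ C : ℝ, 1 ≤ C ∧ ∀ (T : Nd) (g : Geo) (ℓ : ℕ) (h β : ℝ),
    Ad g ℓ h β → 8 ≤ ℓ → (L : ℝ) ^ 2 ≤ h → ∀ s s' : T.ι → g.St, (∀ i, g.Wf (s i)) →
    (∀ i, g.Wf (s' i)) → ∀ ε ε' : ℝ, C * ε ≤ 1 →
      Anch ℓ L (fun X => PN T g ℓ h β X fun i => (s i).H X) ε →
      Anch ℓ L (fun X => PN T g ℓ h β X fun i => (s' i).H X) ε →
      Anch ℓ L (fun X => PN T g ℓ h β X fun i => (s i).H X - (s' i).H X) ε' →
      Anch (L * ℓ) (2 * L) (fun U => PN T g ℓ (h / 2) β U fun i =>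
        NL g (covP (Dm g.A) ℓ (L * ℓ)) (s i) (s' i) U) (C * ε * ε') ∧
      Anch (L * ℓ) (2 * L) (fun U => PN T g ℓ (h / 2) β U fun i =>
        g.intg ℓ (L * ℓ) (s i) U - g.intg ℓ (L * ℓ) (s' i) U) (C * ε') := by
  obtain ⟨Cg, hCg, hgram⟩ := gram_covP
  refine ⟨⌈4 * Cg⌉₊, fun L hL => ?_⟩
  have hL1 : 4 * Cg ≤ L := Nat.ceil_le.1 hL
  have hL4 : 4 ≤ L := by
    have : (4 : ℝ) ≤ L := by linarith
    exact_mod_cast this
  obtain ⟨C, hC, H⟩ := step_clT L (by linarith) L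
  refine ⟨C, hC, fun T g ℓ h β a hl hh s s' hs hs' => ?_⟩
  have h4 : 4 * ℓ ≤ L * ℓ := Nat.mul_le_mul_right ℓ hL4
  have hl0 : (ℓ : ℝ) ≠ 0 := by positivity
  have hc : Cg * ((L * ℓ : ℕ) : ℝ) / ℓ = Cg * L := by push_cast; field_simp
  exact H T g ℓ (L * ℓ) a.l h4 le_rfl (covP (Dm g.A) ℓ (L * ℓ))
    (cov_anti a.sign _ _) (fun s s' hs => covP_range g.A (by omega) (by omega) hs) _ h β
    (hgram _ _ (isD_Dm a.sign) ℓ (L * ℓ) hl (by omega)) (by positivity)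
    (by rw [hc]; nlinarith) a.h a.b (fun i => (s i).H) (fun i => (s' i).H)
    (fun i => (hs i).H_empty) (fun i => (hs' i).H_empty) (fun i => (hs i).H_mem)
    fun i => (hs' i).H_mem

end Vale.Agent.P144Z.AN
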