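import Vale.Agent.P144A.Cl

/-!
The abstract contraction estimate of the defect steps, for families.
-/

namespace Vale.Agent.P144Z.AN

open Finset Matrix Geo R8

/-- The defect size of the difference of two families of states. -/
noncomputable def dfT (T : Nd) (g : Geo) (ℓ : ℕ) (h β : ℝ) (s s' : T.ι → g.St) (X : Finset g.P) :
    ℝ := PN T g ℓ h β X (fun i => g.dp ℓ X ((s i).K X - (s' i).K X)) +
  PN T g ℓ h β X fun i => g.dp ℓ X ((s i).car X - (s' i).car X)

open Classical in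
/-- The bulk size of a family of states. -/
noncomputable def bfT (T : Nd) (g : Geo) (ℓ : ℕ) (h : ℝ) (s : T.ι → g.St) (X : Finset g.P) : ℝ :=
  if g.nd ℓ X then PN T g ℓ h 1 X (fun i => g.noB ((s i).K X)) +
    PN T g ℓ h 1 X fun i => g.noB ((s i).car X) else 0

variable {T : Nd} {g : Geo} {L ℓ j : ℕ} {h β h' β' kc ks ke : ℝ} {s s' t : T.ι → g.St}

theorem dfT_nonneg (X : Finset g.P) : 0 ≤ dfT T g ℓ h β s s' X :=
  add_nonneg (PN_nonneg _ _) (PN_nonneg _ _)

theorem bfT_nonneg (X : Finset g.P) : 0 ≤ bfT T g ℓ h s X := by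
  unfold bfT
  split_ifs
  exacts [add_nonneg (PN_nonneg _ _) (PN_nonneg _ _), le_rfl]

theorem PN_noB (a : Ad g ℓ h β) {X : Finset g.P} {F : T.ι → g.E} (hF : ∀ i, F i ∈ g.sub X) :
    PN T g ℓ h β X (fun i => g.noB (F i)) ≤ PN T g ℓ h 1 X fun i => g.noB (F i) := by
  simpa [PN] using tr2 (T := T) (g.sub X).toSubmodule hF g.noB.isLinear g.noB.isLinear zero_le_one
    zero_le_one (φ := g.pn ℓ h β X) (ψ := g.pn ℓ h 1 X) fun F hF => by
      rw [pn_noB_eq a.sign a.l a.h a.b hF one_pos, mul_one, one_mul]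

theorem bf_splitT (a : Ad g ℓ h β) (hs : ∀ i, g.Wf (s i)) (hf : ∀ i, g.Free (s' i))
    (X : Finset g.P) : PN T g ℓ h β X (fun i => bp g ℓ X ((s i).K X - (s' i).K X)) +
      PN T g ℓ h β X (fun i => bp g ℓ X ((s i).car X - (s' i).car X)) ≤ bfT T g ℓ h s X := by
  unfold bp bfT
  split_ifs
  · simp only [map_sub, fun i => (hf i).1 X, fun i => Free.noB_car (hf i) X, sub_zero]
    exact add_le_add (PN_noB a fun i => (hs i).Kmem X) (PN_noB a fun i => (hs i).car_mem X)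
  · rw [PN_zero a, add_zero]

theorem PN_split (a : Ad g ℓ h β) (ℓ₁ : ℕ) (X : Finset g.P) (F : T.ι → g.E) : PN T g ℓ h β X F ≤
    PN T g ℓ h β X (fun i => g.dp ℓ₁ X (F i)) + PN T g ℓ h β X fun i => bp g ℓ₁ X (F i) := by
  simpa only [dp_add_bp] using PN_add a (X := X) (fun i => g.dp ℓ₁ X (F i)) fun i => bp g ℓ₁ X (F i)

theorem pn_H_subT (a : Ad g ℓ h β) (hs : ∀ i, g.Wf (s i)) (hf : ∀ i, g.Free (s' i))
    (X : Finset g.P) : PN T g ℓ h β X (fun i => (s i).H X - (s' i).H X) ≤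
      dfT T g ℓ h β s s' X + bfT T g ℓ h s X := by
  simp only [St.H, add_sub_add_comm, dfT]
  linarith [PN_add a (X := X) (fun i => (s i).K X - (s' i).K X) fun i => (s i).car X - (s' i).car X,
    PN_split a ℓ X fun i => (s i).K X - (s' i).K X,
    PN_split a ℓ X fun i => (s i).car X - (s' i).car X, bf_splitT a hs hf X]

section One

variable {s₀ s₀' t₀ : g.St} (H₀ : Hyp g L ℓ j h β h' β' kc ks ke s₀ s₀' t₀)
include H₀

theorem A1' (U : Finset g.P) {F : g.E} (hF : F ∈ g.sub U) :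
    g.pn (L * ℓ) h' β' (g.tgt ℓ U) (g.Lin (covP (Dm g.A) ℓ (L * ℓ)) (g.dp ℓ U F) -
      g.xtr j ℓ (L * ℓ) U (g.Lin (covP (Dm g.A) ℓ (L * ℓ)) (g.dp ℓ U F))) *
      Real.exp ((stein (g.tgt ℓ U) : ℝ) / ℓ) ≤
      Hyp.fac g ℓ kc ks U * 2 * g.pn ℓ h β U (g.dp ℓ U F) := by
  have m := Lin_mem H₀.anti (dp_mem (ℓ := ℓ) hF U)
  have nB : g.nd ℓ U → g.noB (g.Lin (covP (Dm g.A) ℓ (L * ℓ)) (g.dp ℓ U F)) = 0 := fun hU => by
    rw [noB_Lin H₀.anti, noB_dp hU, Lin_zero]
  rw [mul_assoc]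
  refine le_trans ?_ (mul_le_mul_of_nonneg_left (H₀.pn_Lin (dp_mem hF U)) (H₀.fac_nonneg U))
  unfold Hyp.fac Geo.tgt
  by_cases hU : stein U ≤ ℓ
  · rw [if_pos hU, if_pos hU]
    by_cases hD : Dfc g ℓ U
    · rw [if_pos hD]
      have h1 : xe g ℓ (L * ℓ) U (g.Lin (covP (Dm g.A) ℓ (L * ℓ)) (g.dp ℓ U F)) = 0 := by
        unfold xe
        split_ifs with hX
        · rw [sum_eq_zero fun x _ => Ext_of_noB (nB (H₀.nd hX)), smul_zero]
        · rfl
      rw [xtr_eq, h1, zero_add, mul_comm, mul_assoc]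
      exact mul_le_mul (H₀.wt_plus hU) (H₀.T2 U hU _ m (noF_Lin _) nB)
        (pn_nonneg _ _) (Real.exp_pos _).le
    · rw [if_neg hD, dp_of_not_dfc hD hF, Lin_zero, xtr_zero, sub_zero, H₀.a'.zero,
        zero_mul, zero_mul]
  · rw [if_neg hU, if_neg hU, xtr_large hU, sub_zero, ← Hyp.wt_sq]
    have h1 := mul_le_mul_of_nonneg_right (H₀.T1 U _ m) (Real.exp_pos ((stein U : ℝ) / ℓ)).le
    linarith

variable (H : ∀ i, Hyp g L ℓ j h β h' β' kc ks ke (s i) (s' i) (t i))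
  (T3 : ∀ X, stein X ≤ ℓ → PN T g (L * ℓ) h' β' X (fun i => g.dp ℓ X ((s i).car X - (s' i).car X)) ≤
    ks * PN T g ℓ h β X fun i => g.dp ℓ X ((s i).car X - (s' i).car X))
include H

theorem pn_G2T (U : Finset g.P) : PN T g ℓ (h / 2) β U (fun i => G2 g ℓ (L * ℓ) (s i) (s' i) U) ≤
    2 * PN T g ℓ h β U (fun i => bp g ℓ U ((s i).K U - (s' i).K U)) +
      2 * PN T g ℓ (h / 2) β U fun i => NL g (covP (Dm g.A) ℓ (L * ℓ)) (s i) (s' i) U :=
  (PN_add H₀.a.half _ _).trans (add_le_add (tr1 (g.sub U).toSubmodule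
    (fun i => bp_mem ((H i).dK_mem U) U) (lin_Lin _) zero_le_two fun _ hF => H₀.pn_Lin hF)
    (PN_noF H₀.a.half fun i => NL_mem H₀.anti (H i).hs (H i).hs' U))

omit H in
theorem B2T (X : Finset g.P) {F : T.ι → g.E} (hF : ∀ i, F i ∈ g.sub X) :
    PN T g (L * ℓ) h' β' X F * Real.exp ((stein X : ℝ) / ℓ) ≤
      kc * Real.exp (2 * (stein X : ℝ) / ℓ) * PN T g ℓ h β X F :=
  tr2 (g.sub X).toSubmodule hF lin_id lin_id (Real.exp_pos _).le
    (mul_nonneg H₀.kc0 (Real.exp_pos _).le) fun _ hG => H₀.B2 X hG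

include T3

theorem B1T (X : Finset g.P) :
    PN T g (L * ℓ) h' β' X (fun i => g.dp ℓ X ((s i).car X - (s' i).car X)) *
      Real.exp ((stein X : ℝ) / ℓ) ≤
      Hyp.fac g ℓ kc ks X * PN T g ℓ h β X fun i => g.dp ℓ X ((s i).car X - (s' i).car X) := by
  unfold Hyp.fac
  by_cases hU : stein X ≤ ℓ
  · rw [if_pos hU]
    by_cases hD : Dfc g ℓ X
    · rw [if_pos hD, mul_comm, mul_assoc]
      exact mul_le_mul (H₀.wt_le (by omega)) (T3 X hU) (PN_nonneg _ _) (Real.exp_pos _).le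
    · simp only [if_neg hD, fun i => dp_of_not_dfc hD ((H i).dc_mem X), PN_zero H₀.a', zero_mul,
        le_refl]
  · rw [if_neg hU]
    exact B2T H₀ X fun i => dp_mem ((H i).dc_mem X) X

open Classical in
theorem df_leT (X : Finset g.P) :
    dfT T g (L * ℓ) h' β' (fun i => g.step j ℓ (L * ℓ) 0 (s i)) t X * Real.exp ((stein X : ℝ) / ℓ) ≤
      ∑ U ∈ univ.filter (fun U => g.tgt ℓ U = X),
        2 * (Hyp.fac g ℓ kc ks U * (2 * PN T g ℓ h β U fun i => g.dp ℓ U ((s i).K U - (s' i).K U)) +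
          Real.exp 6 * (kc + 2 * ke) * Real.exp (2 * (stein U : ℝ) / ℓ) *
            PN T g ℓ (h / 2) β U fun i => G2 g ℓ (L * ℓ) (s i) (s' i) U) +
      2 * (Hyp.fac g ℓ kc ks X * PN T g ℓ h β X (fun i => g.dp ℓ X ((s i).car X - (s' i).car X)) +
        kc * Real.exp (2 * (stein X : ℝ) / ℓ) *
          PN T g ℓ h β X fun i => bp g ℓ X ((s i).car X - (s' i).car X)) +
      ∑ x ∈ univ.filter (fun x => star x = X),
        ∑ U ∈ univ.filter (fun U => x ∈ U ∧ g.Xtr ℓ (L * ℓ) U), (U.card : ℝ)⁻¹ *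
          (2 * Real.exp 6 * ke * PN T g ℓ (h / 2) β U fun i => G2 g ℓ (L * ℓ) (s i) (s' i) U) := by
  have hw := (Real.exp_pos ((stein X : ℝ) / ℓ)).le
  have hc := H₀.kc0
  have he := H₀.ke0
  rw [dfT, add_mul, add_assoc]
  refine add_le_add ?_ ?_
  · simp only [fun i => (H i).K_eq X]
    refine (mul_le_mul_of_nonneg_right ((PN_dp H₀.a' (fun i => sum_mem fun U hU => ?_) _ _).trans
      (mul_le_mul_of_nonneg_left (PN_sum H₀.a' _ _) zero_le_two)) hw).trans ?_
    · rw [← (mem_filter.1 hU).2]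
      exact add_mem (sub_xtr_mem ((H i).G1_mem U)) (sub_xtr_mem ((H i).G2_mem U))
    · rw [mul_assoc, sum_mul, mul_sum]
      refine sum_le_sum fun U hU => mul_le_mul_of_nonneg_left ?_ zero_le_two
      rw [← (mem_filter.1 hU).2]
      refine (mul_le_mul_of_nonneg_right (PN_add H₀.a' _ _) (Real.exp_pos _).le).trans ?_
      rw [add_mul, ← mul_assoc]
      have l := lin_comp (lin_Lin (covP (Dm g.A) ℓ (L * ℓ))) (lin_dp (ℓ := ℓ) U)
      exact add_le_add (tr2 (g.sub U).toSubmodule (fun i => (H i).dK_mem U)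
        (lin_sub l (lin_comp (lin_xtr U) l)) (lin_dp U) (Real.exp_pos _).le
        (mul_nonneg (H₀.fac_nonneg U) zero_le_two) fun F hF => A1' H₀ U hF)
        (tr2 (g.sub U).toSubmodule (fun i => (H i).G2_mem U) (lin_sub lin_id (lin_xtr U)) lin_id
          (Real.exp_pos _).le (by positivity) fun F hF => H₀.A2 U hF)
  · have hm : ∀ i, ∑ x ∈ univ.filter (fun x => star x = X),
        g.Ext x (g.out ℓ (L * ℓ) (s i) x) ∈ g.sub X := fun i =>
      sum_mem fun x hx => by rw [← (mem_filter.1 hx).2]; exact Ext_mem x _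
    simp only [fun i => (H i).car_eq X]
    refine (mul_le_mul_of_nonneg_right ((PN_dp H₀.a'
      (fun i => add_mem ((H i).dc_mem X) (hm i)) _ _).trans
      (mul_le_mul_of_nonneg_left (PN_add H₀.a' _ _) zero_le_two)) hw).trans ?_
    rw [mul_add, add_mul]
    refine add_le_add ?_ ?_
    · rw [mul_assoc]
      refine mul_le_mul_of_nonneg_left ?_ zero_le_two
      refine (mul_le_mul_of_nonneg_right (PN_split H₀.a' ℓ X _) hw).trans ?_
      rw [add_mul]
      exact add_le_add (B1T H₀ H T3 X) (B2T H₀ X fun i => bp_mem ((H i).dc_mem X) X)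
    · refine (mul_le_mul_of_nonneg_right (mul_le_mul_of_nonneg_left (PN_sum H₀.a' _ _) zero_le_two)
        hw).trans ?_
      rw [mul_assoc, sum_mul, mul_sum]
      refine sum_le_sum fun x hx => ?_
      rw [← (mem_filter.1 hx).2]
      simp only [fun i => (H i).Ext_out x]
      refine (mul_le_mul_of_nonneg_left (mul_le_mul (PN_sum H₀.a' _ _)
        (H₀.wt_le (by have := stein_star x; have := H₀.hl; omega)) (Real.exp_pos _).le
        (sum_nonneg fun _ _ => PN_nonneg _ _)) zero_le_two).trans ?_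
      rw [sum_mul, mul_sum]
      refine sum_le_sum fun U hU => ?_
      rw [PN_smul H₀.a', abs_of_nonneg (by positivity)]
      have h2 := mul_le_mul_of_nonneg_left (tr1 (T := T) (g.sub U).toSubmodule
        (fun i => (H i).G2_mem U) (lin_Ext x) he fun F hF =>
          H₀.T4 U (mem_filter.1 hU).2.2 x (mem_filter.1 hU).2.1 F hF)
        (by positivity : 0 ≤ 2 * Real.exp 6 * (U.card : ℝ)⁻¹)
      unfold PN
      linarith

theorem sum_df_leT (z : g.P) : ∑ X ∈ near (L * ℓ) z,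
    dfT T g (L * ℓ) h' β' (fun i => g.step j ℓ (L * ℓ) 0 (s i)) t X * Real.exp ((stein X : ℝ) / ℓ) ≤
      ∑ U ∈ near (2 * (L * ℓ)) z, (4 * (Hyp.fac g ℓ kc ks U * dfT T g ℓ h β s s' U) +
        6 * Real.exp 6 * (kc + 3 * ke) * ((bfT T g ℓ h s U +
          PN T g ℓ (h / 2) β U fun i => NL g (covP (Dm g.A) ℓ (L * ℓ)) (s i) (s' i) U) *
            Real.exp (2 * (stein U : ℝ) / ℓ))) := by
  classical
  have hc := H₀.kc0
  have he := H₀.ke0
  have h1 : L * ℓ + 1 ≤ 2 * (L * ℓ) := by have := H₀.a'.l; omega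
  have h2 : L * ℓ ≤ 2 * (L * ℓ) := by omega
  have h3 : ∀ U : Finset g.P, 0 ≤ Real.exp 6 * (kc + 2 * ke) * Real.exp (2 * (stein U : ℝ) / ℓ) :=
    fun U => by positivity
  have h4 : ∀ U : Finset g.P, 0 ≤ kc * Real.exp (2 * (stein U : ℝ) / ℓ) := fun U => by positivity
  have h5 : 0 ≤ 2 * Real.exp 6 * ke := by positivity
  refine (sum_le_sum fun X _ => df_leT H₀ H T3 X).trans ?_
  rw [sum_add_distrib, sum_add_distrib]
  refine (add_le_add (add_le_add (sum_fiber_le _ (near (2 * (L * ℓ)) z) _ _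
    (fun U => mul_nonneg zero_le_two (add_nonneg (mul_nonneg (H₀.fac_nonneg U)
      (mul_nonneg zero_le_two (PN_nonneg _ _))) (mul_nonneg (h3 U) (PN_nonneg _ _))))
    fun U hU => ?_) (sum_le_sum_of_subset_of_nonneg (near_mono h2 z) fun X _ _ =>
      mul_nonneg zero_le_two (add_nonneg (mul_nonneg (H₀.fac_nonneg X) (PN_nonneg _ _))
        (mul_nonneg (h4 X) (PN_nonneg _ _)))))
    ((Hyp.sum_star_le z _ _ fun U => mul_nonneg h5 (PN_nonneg _ _)).trans
      (sum_le_sum_of_subset_of_nonneg (near_mono h1 z) fun U _ _ =>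
        mul_nonneg h5 (PN_nonneg _ _)))).trans ?_
  · unfold Geo.tgt at hU
    split_ifs at hU
    · exact near_mono h1 z (near_plus hU)
    · exact near_mono h2 z hU
  · rw [← sum_add_distrib, ← sum_add_distrib]
    refine sum_le_sum fun U _ => ?_
    refine (Hyp.arith hc he (pn_G2T H₀ H U) (PN_nonneg _ _) (H₀.fac_nonneg U) (PN_nonneg _ _)
      (PN_nonneg _ _) (PN_nonneg _ _) (PN_nonneg _ _) (Real.one_le_exp (by positivity))
      (Real.one_le_exp (by norm_num))).trans ?_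
    have := bf_splitT H₀.a (fun i => (H i).hs) (fun i => (H i).hf) U
    rw [dfT]
    gcongr

/-- The abstract step. -/
theorem coreT {N : ℕ} (hN : LCov g N ℓ (3 * (L * ℓ))) {D b ν : ℝ}
    (hD : Anch ℓ L (dfT T g ℓ h β s s') D) (hb : Anch ℓ L (bfT T g ℓ h s) b)
    (hν : Anch (L * ℓ) (2 * L) (fun U =>
      PN T g ℓ (h / 2) β U fun i => NL g (covP (Dm g.A) ℓ (L * ℓ)) (s i) (s' i) U) ν) :
    Anch (L * ℓ) L (dfT T g (L * ℓ) h' β' (fun i => g.step j ℓ (L * ℓ) 0 (s i)) t)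
      ((676 * Real.exp 6 * ks * N + 800 * kc * L ^ 2 * Real.exp (2 - L)) * D +
        1200 * Real.exp 6 * (kc + 3 * ke) * (L ^ 2 * b + ν)) := by
  classical
  intro z
  have hc := H₀.kc0
  have he := H₀.ke0
  have hs := H₀.ks0
  have hl : (0 : ℝ) < ℓ := by have := H₀.hl; positivity
  have hL : (6 : ℝ) ≤ L := by exact_mod_cast H₀.hL
  simp only [H₀.wt_eq]
  refine (sum_df_leT H₀ H T3 z).trans ?_
  rw [sum_add_distrib, ← mul_sum, ← mul_sum]
  have h1 := H₀.sum_small hN dfT_nonneg hD z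
  have h2 := H₀.sum_up dfT_nonneg hD z
  have h3 : ∑ U ∈ near (2 * (L * ℓ)) z, Hyp.fac g ℓ kc ks U * dfT T g ℓ h β s s' U ≤
      Real.exp 6 * ks * (169 * N * D) + kc * Real.exp (2 - L) * (200 * L ^ 2 * D) := by
    refine le_trans ?_ (add_le_add (mul_le_mul_of_nonneg_left h1 (by positivity))
      (mul_le_mul_of_nonneg_left h2 (by positivity)))
    rw [sum_filter, mul_sum, mul_sum, ← sum_add_distrib]
    refine sum_le_sum fun U _ => ?_
    have h0 := dfT_nonneg (ℓ := ℓ) (h := h) (β := β) (s := s) (s' := s') U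
    unfold Hyp.fac
    by_cases hU : stein U ≤ ℓ
    · rw [if_pos hU]
      refine le_add_of_le_of_nonneg (le_of_eq ?_) (by positivity)
      by_cases hD : Dfc g ℓ U
      · rw [if_pos hD, if_pos ⟨hU, hD⟩]
      · rw [if_neg hD, if_neg fun h => hD h.2, zero_mul, mul_zero]
    · rw [if_neg hU, if_neg fun h => hU h.1, mul_zero, zero_add, mul_assoc, mul_assoc,
        mul_left_comm (Real.exp _), ← Real.exp_add, mul_comm (Real.exp _)]
      refine mul_le_mul_of_nonneg_left (mul_le_mul_of_nonneg_left (Real.exp_le_exp.2 ?_) h0) hc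
      have h4 : (1 : ℝ) ≤ (stein U : ℝ) / ℓ := by
        rw [le_div_iff₀ hl, one_mul]; exact_mod_cast (not_le.1 hU).le
      rw [mul_div_assoc, mul_div_assoc]
      nlinarith
  have h4 : ∑ U ∈ near (2 * (L * ℓ)) z, bfT T g ℓ h s U * Real.exp (2 * (stein U : ℝ) / ℓ) ≤
      200 * L ^ 2 * b := by
    refine le_trans (sum_le_sum fun U _ => mul_le_mul_of_nonneg_left (Real.exp_le_exp.2 ?_)
      (bfT_nonneg U)) (H₀.sum_up bfT_nonneg hb z)
    gcongr
    linarith
  have h5 : ∑ U ∈ near (2 * (L * ℓ)) z, (PN T g ℓ (h / 2) β U fun i =>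
      NL g (covP (Dm g.A) ℓ (L * ℓ)) (s i) (s' i) U) *
      Real.exp (2 * (stein U : ℝ) / ℓ) ≤ 200 * ν := by
    have h6 := sum_near H₀.a'.l (by omega : L * ℓ ≤ 2 * (L * ℓ)) (fun U => PN_nonneg _ _) hν z
    have h7 : (L : ℝ) ≠ 0 := by linarith
    refine le_trans (le_of_eq (sum_congr rfl fun U _ => ?_)) (h6.trans (le_of_eq ?_))
    · congr 2
      push_cast
      field_simp
    · push_cast
      field_simp
      ring
  simp only [add_mul (bfT T g ℓ h s _), sum_add_distrib]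
  have h8 := mul_le_mul_of_nonneg_left (add_le_add h4 h5)
    (by positivity : 0 ≤ 6 * Real.exp 6 * (kc + 3 * ke))
  linarith

end One

end Vale.Agent.P144Z.AN
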