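import Mathlib

/-!
Divided differences of finite families and the norms built from them.
-/

namespace Vale.Agent.P144Z.DD

open Finset Filter Topology

section Basic

variable {ι : Type} (x : ι → ℝ) (ρ : ℝ) {U V W : Type} [AddCommGroup U] [Module ℝ U]
  [AddCommGroup V] [Module ℝ V] [AddCommGroup W] [Module ℝ W]

/-- The difference quotient at the node `i`. -/
noncomputable def dq (i : ι) (f : ι → V) : ι → V := fun j => (x j - x i)⁻¹ • (f j - f i)

/-- The weighted sum of the divided differences along a list of nodes. -/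
noncomputable def R (φ : V → ℝ) : List ι → (ι → V) → ℝ
  | [], _ => 0
  | i :: l, f => φ (f i) + ρ * R φ l (dq x i f)

/-- The largest of these sums over the tails of the list. -/
noncomputable def N (φ : V → ℝ) : List ι → (ι → V) → ℝ
  | [], _ => 0
  | i :: l, f => max (R x ρ φ (i :: l) f) (N φ l f)

variable {x ρ} {φ ψ : V → ℝ}

theorem R_cons (i : ι) (l : List ι) (f : ι → V) :
    R x ρ φ (i :: l) f = φ (f i) + ρ * R x ρ φ l (dq x i f) := rfl

theorem N_cons (i : ι) (l : List ι) (f : ι → V) :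
    N x ρ φ (i :: l) f = max (R x ρ φ (i :: l) f) (N x ρ φ l f) := rfl

theorem dq_mem (S : Submodule ℝ V) {f : ι → V} (hf : ∀ i, f i ∈ S) (i j : ι) : dq x i f j ∈ S :=
  S.smul_mem _ (S.sub_mem (hf j) (hf i))

theorem R_mono (hρ : 0 ≤ ρ) (S : Submodule ℝ V) (h : ∀ v ∈ S, φ v ≤ ψ v) (l : List ι)
    {f : ι → V} (hf : ∀ i, f i ∈ S) : R x ρ φ l f ≤ R x ρ ψ l f := by
  induction l generalizing f with
  | nil => exact le_rfl
  | cons i l ih =>
    exact add_le_add (h _ (hf i)) (mul_le_mul_of_nonneg_left (ih (dq_mem S hf i)) hρ)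

theorem R_map (A : U →ₗ[ℝ] V) (l : List ι) (f : ι → U) :
    R x ρ φ l (fun i => A (f i)) = R x ρ (fun u => φ (A u)) l f := by
  induction l generalizing f with
  | nil => rfl
  | cons i l ih =>
    rw [R_cons, R_cons, ← ih]
    congr 3
    funext j
    simp only [dq, map_smul, map_sub]

theorem R_add (l : List ι) (f : ι → V) :
    R x ρ (fun v => φ v + ψ v) l f = R x ρ φ l f + R x ρ ψ l f := by
  induction l generalizing f with
  | nil => exact (add_zero _).symm
  | cons i l ih =>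
    rw [R_cons, R_cons, R_cons, ih]
    ring

theorem R_mul (c : ℝ) (l : List ι) (f : ι → V) :
    R x ρ (fun v => c * φ v) l f = c * R x ρ φ l f := by
  induction l generalizing f with
  | nil => exact (mul_zero _).symm
  | cons i l ih =>
    rw [R_cons, R_cons, ih]
    ring

theorem R_nonneg (hρ : 0 ≤ ρ) (h : ∀ v, 0 ≤ φ v) (l : List ι) (f : ι → V) : 0 ≤ R x ρ φ l f := by
  induction l generalizing f with
  | nil => exact le_rfl
  | cons i l ih => exact add_nonneg (h _) (mul_nonneg hρ (ih _))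

theorem R_congr {l : List ι} {f g : ι → V} (h : ∀ i ∈ l, f i = g i) :
    R x ρ φ l f = R x ρ φ l g := by
  induction l generalizing f g with
  | nil => rfl
  | cons i l ih =>
    rw [R_cons, R_cons, h i List.mem_cons_self, ih fun j hj => ?_]
    rw [dq, dq, h i List.mem_cons_self, h j (List.mem_cons_of_mem _ hj)]

theorem R_zero (h : φ 0 = 0) (l : List ι) : R x ρ φ l 0 = 0 := by
  induction l with
  | nil => rfl
  | cons i l ih =>
    have : dq x i (0 : ι → V) = 0 := funext fun j => by simp [dq]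
    rw [R_cons, this, ih, Pi.zero_apply, h, mul_zero, add_zero]

theorem R_const (h : φ 0 = 0) {v : V} (hv : 0 ≤ φ v) (l : List ι) :
    R x ρ φ l (fun _ => v) ≤ φ v := by
  cases l with
  | nil => exact hv
  | cons i l =>
    have : dq x i (fun _ => v) = 0 := funext fun j => by simp [dq]
    rw [R_cons, this, R_zero h, mul_zero, add_zero]

theorem R_addf (hρ : 0 ≤ ρ) (h : ∀ v w, φ (v + w) ≤ φ v + φ w) (l : List ι) (f g : ι → V) :
    R x ρ φ l (f + g) ≤ R x ρ φ l f + R x ρ φ l g := by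
  induction l generalizing f g with
  | nil => exact (add_zero _).ge
  | cons i l ih =>
    have : dq x i (f + g) = dq x i f + dq x i g := funext fun j => by
      simp only [dq, Pi.add_apply, ← smul_add]
      congr 1
      abel
    rw [R_cons, R_cons, R_cons, this]
    have h1 := mul_le_mul_of_nonneg_left (ih (dq x i f) (dq x i g)) hρ
    have h2 := h (f i) (g i)
    rw [Pi.add_apply]
    linarith

theorem R_le_N (l : List ι) (f : ι → V) : R x ρ φ l f ≤ N x ρ φ l f := by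
  cases l with
  | nil => exact le_rfl
  | cons i l => exact le_max_left _ _

theorem N_nonneg (l : List ι) (f : ι → V) : 0 ≤ N x ρ φ l f := by
  induction l with
  | nil => exact le_rfl
  | cons i l ih => exact ih.trans (le_max_right _ _)

theorem N_le {l : List ι} {f : ι → V} {c : ℝ} (hc : 0 ≤ c)
    (h : ∀ l', l' <:+ l → R x ρ φ l' f ≤ c) : N x ρ φ l f ≤ c := by
  induction l with
  | nil => exact hc
  | cons i l ih =>
    exact max_le (h _ List.suffix_rfl) (ih fun l' hl => h l' (hl.trans (List.suffix_cons i l)))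

theorem le_N {l l' : List ι} (h : l' <:+ l) (f : ι → V) : R x ρ φ l' f ≤ N x ρ φ l f := by
  induction l with
  | nil => rw [List.suffix_nil.1 h]; exact le_rfl
  | cons i l ih =>
    rcases List.suffix_cons_iff.1 h with rfl | h
    · exact le_max_left _ _
    · exact (ih h).trans (le_max_right _ _)

theorem N_tail {l l' : List ι} (h : l' <:+ l) (f : ι → V) : N x ρ φ l' f ≤ N x ρ φ l f :=
  N_le (N_nonneg _ _) fun _ h' => le_N (h'.trans h) f

theorem pt_le (hρ : 0 ≤ ρ) (h : ∀ v, 0 ≤ φ v) {l : List ι} {i : ι} (hi : i ∈ l) (f : ι → V) :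
    φ (f i) ≤ N x ρ φ l f := by
  obtain ⟨s, t, rfl⟩ := List.append_of_mem hi
  exact (le_add_of_nonneg_right (mul_nonneg hρ (R_nonneg hρ h _ _))).trans
    (le_N (l' := i :: t) (List.suffix_append _ _) f)

theorem R_bil (hρ : 0 ≤ ρ) {χ : U → ℝ} {ψ : W → ℝ} (B : V →ₗ[ℝ] W →ₗ[ℝ] U)
    (hχ : ∀ v w, χ (v + w) ≤ χ v + χ w) (hφ : ∀ v, 0 ≤ φ v) (hB : ∀ v w, χ (B v w) ≤ φ v * ψ w)
    (l : List ι) (f : ι → V) (g : ι → W) :
    R x ρ χ l (fun i => B (f i) (g i)) ≤ R x ρ φ l f * N x ρ ψ l g := by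
  induction l generalizing f with
  | nil => exact (zero_mul _).ge
  | cons i l ih =>
    have e : dq x i (fun j => B (f j) (g j)) =
        (fun j => B (f i) (dq x i g j)) + fun j => B (dq x i f j) (g j) := funext fun j => by
      simp only [dq, Pi.add_apply, map_smul, map_sub, LinearMap.smul_apply, LinearMap.sub_apply,
        ← smul_add]
      congr 1
      abel
    have h1 : R x ρ χ l (fun j => B (f i) (dq x i g j)) ≤ φ (f i) * R x ρ ψ l (dq x i g) := by
      rw [R_map (B (f i)), ← R_mul]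
      exact R_mono hρ ⊤ (fun w _ => hB _ w) l fun _ => trivial
    have h2 := (ih (dq x i f)).trans (mul_le_mul_of_nonneg_left
      (N_tail (List.suffix_cons i l) g) (R_nonneg hρ hφ _ _))
    have h3 := mul_le_mul_of_nonneg_left (R_le_N (x := x) (ρ := ρ) (φ := ψ) (i :: l) g) (hφ (f i))
    have h4 := mul_le_mul_of_nonneg_left ((R_addf hρ hχ l _ _).trans (add_le_add h1 h2)) hρ
    rw [R_cons] at h3
    rw [R_cons, R_cons, e]
    linarith [hB (f i) (g i)]

theorem R_x (hρ : 0 ≤ ρ) {l : List ι} (hl : (l.map x).Nodup) {c : ℝ} (hc : 0 ≤ c)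
    (h : ∀ i, |x i| ≤ c) : R x ρ abs l x ≤ c + ρ := by
  cases l with
  | nil => exact add_nonneg hc hρ
  | cons i l =>
    rw [R_cons, R_congr (g := fun _ => 1) fun j hj => ?_]
    · refine add_le_add (h i) (mul_le_of_le_one_right hρ ?_)
      simpa using R_const (x := x) (ρ := ρ) (φ := abs) abs_zero (abs_nonneg (1 : ℝ)) l
    · rw [List.map_cons, List.nodup_cons] at hl
      have : x j - x i ≠ 0 := sub_ne_zero.2 fun e => hl.1 (e ▸ List.mem_map_of_mem hj)
      rw [dq, smul_eq_mul, inv_mul_cancel₀ this]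

theorem R_comp (l : List ι) (f : ℝ → V) :
    R x ρ φ l (fun i => f (x i)) = R id ρ φ (l.map x) f := by
  induction l generalizing f with
  | nil => rfl
  | cons i l ih =>
    rw [List.map_cons, R_cons, R_cons, ← ih]
    rfl

theorem R_tendsto [TopologicalSpace V] [IsTopologicalAddGroup V] [ContinuousSMul ℝ V]
    (hφ : Continuous φ) {α : Type} {𝓕 : Filter α} {l : List ι} {F : α → ι → V} {G : ι → V}
    (h : ∀ i ∈ l, Tendsto (fun a => F a i) 𝓕 (𝓝 (G i))) :
    Tendsto (fun a => R x ρ φ l (F a)) 𝓕 (𝓝 (R x ρ φ l G)) := by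
  induction l generalizing F G with
  | nil => exact tendsto_const_nhds
  | cons i l ih =>
    exact ((hφ.tendsto _).comp (h i List.mem_cons_self)).add ((ih fun j hj =>
      ((h j (List.mem_cons_of_mem _ hj)).sub (h i List.mem_cons_self)).const_smul _).const_mul ρ)

theorem N_tendsto [TopologicalSpace V] [IsTopologicalAddGroup V] [ContinuousSMul ℝ V]
    (hφ : Continuous φ) {α : Type} {𝓕 : Filter α} {l : List ι} {F : α → ι → V} {G : ι → V}
    (h : ∀ i, Tendsto (fun a => F a i) 𝓕 (𝓝 (G i))) :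
    Tendsto (fun a => N x ρ φ l (F a)) 𝓕 (𝓝 (N x ρ φ l G)) := by
  induction l with
  | nil => exact tendsto_const_nhds
  | cons i l ih => exact (R_tendsto hφ fun j _ => h j).max ih

end Basic

section An

variable {ρ : ℝ} {I : Set ℝ} {μ : ℝ}

/-- Bounded divided differences on the set `I`. -/
def Bd (ρ : ℝ) (I : Set ℝ) (f : ℝ → ℝ) (C : ℝ) : Prop :=
  ∀ l : List ℝ, l.Nodup → (∀ t ∈ l, t ∈ I) → R id ρ abs l f ≤ C

theorem Bd.abs_le {f : ℝ → ℝ} {C : ℝ} (h : Bd ρ I f C) {t : ℝ} (ht : t ∈ I) : |f t| ≤ C := by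
  simpa [R] using h [t] (by simp) (by simpa)

theorem Bd.lip {f : ℝ → ℝ} {C : ℝ} (h : Bd ρ I f C) {s t : ℝ} (hs : s ∈ I) (ht : t ∈ I) :
    ρ * |f t - f s| ≤ C * |t - s| := by
  rcases eq_or_ne s t with rfl | hne
  · simp
  have h1 := h [s, t] (by simpa) (by simp [hs, ht])
  have h2 : 0 < |t - s| := abs_pos.2 (sub_ne_zero.2 hne.symm)
  simp only [R, dq, id, smul_eq_mul, mul_zero, add_zero, abs_mul, abs_inv] at h1
  rw [← div_le_iff₀ h2, mul_div_assoc, div_eq_inv_mul]
  linarith [abs_nonneg (f s)]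

theorem Bd.step (hρ : 0 < ρ) (hI : I ∈ 𝓝 μ) {f : ℝ → ℝ} {C : ℝ} (h : Bd ρ (I \ {μ}) f C) :
    ∃ a, Tendsto f (𝓝[≠] μ) (𝓝 a) ∧ |a| ≤ C ∧
      Bd ρ (I \ {μ}) (fun t => (t - μ)⁻¹ * (f t - a)) (C / ρ) := by
  have hm : ∀ᶠ t in 𝓝[≠] μ, t ∈ I \ {μ} :=
    (eventually_nhdsWithin_of_eventually_nhds hI).and self_mem_nhdsWithin
  have hC : 0 ≤ C := by simpa [R] using h [] (by simp) (by simp)
  have hc : Cauchy ((𝓝[≠] μ).map f) := by
    refine Metric.cauchy_iff.2 ⟨inferInstance, fun ε hε => ?_⟩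
    refine ⟨f '' ((I \ {μ}) ∩ Metric.ball μ (ε * ρ / (2 * (C + 1)))), image_mem_map (inter_mem hm
      (mem_nhdsWithin_of_mem_nhds (Metric.ball_mem_nhds _ (by positivity)))), ?_⟩
    rintro _ ⟨s, ⟨hs, hs'⟩, rfl⟩ _ ⟨t, ⟨ht, ht'⟩, rfl⟩
    have h1 := h.lip ht hs
    have h2 : |s - t| < ε * ρ / (C + 1) := by
      have := dist_triangle_right s t μ
      rw [Metric.mem_ball] at hs' ht'
      rw [← Real.dist_eq, show ε * ρ / (C + 1) = ε * ρ / (2 * (C + 1)) + ε * ρ / (2 * (C + 1)) by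
        field_simp; ring]
      linarith
    rw [lt_div_iff₀ (by linarith)] at h2
    rw [Real.dist_eq]
    refine lt_of_mul_lt_mul_left (h1.trans_lt ?_) hρ.le
    nlinarith [abs_nonneg (s - t)]
  obtain ⟨a, ha⟩ := CompleteSpace.complete hc
  have ha' : Tendsto f (𝓝[≠] μ) (𝓝 a) := ha
  refine ⟨a, ha', le_of_tendsto ha'.abs (hm.mono fun t ht => h.abs_le ht), fun l hl hl' => ?_⟩
  have h1 : Tendsto (fun s => R id ρ abs l (dq id s f)) (𝓝[≠] μ)
      (𝓝 (R id ρ abs l fun t => (t - μ)⁻¹ * (f t - a))) := by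
    refine R_tendsto continuous_abs fun t ht => ?_
    have h2 : t - μ ≠ 0 := sub_ne_zero.2 (hl' t ht).2
    exact ((tendsto_const_nhds.sub (tendsto_id.mono_left nhdsWithin_le_nhds)).inv₀ h2).mul
      (tendsto_const_nhds.sub ha')
  refine le_of_tendsto h1 ?_
  have h3 : ∀ᶠ s in 𝓝[≠] μ, s ∉ l := by
    refine eventually_nhdsWithin_of_eventually_nhds ?_
    exact (l.finite_toSet.isClosed.isOpen_compl).mem_nhds fun hμ => (hl' μ hμ).2 rfl
  filter_upwards [hm, h3] with s hs hs'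
  have h4 := h (s :: l) (List.nodup_cons.2 ⟨hs', hl⟩) fun t ht =>
    (List.mem_cons.1 ht).elim (fun e => e ▸ hs) (hl' t)
  rw [R_cons] at h4
  rw [le_div_iff₀ hρ]
  linarith [abs_nonneg (f s)]

theorem Bd.analyticAt (hρ : 0 < ρ) (hI : I ∈ 𝓝 μ) {f : ℝ → ℝ} {C : ℝ} (h : Bd ρ I f C) :
    AnalyticAt ℝ f μ := by
  have h0 : Bd ρ (I \ {μ}) f (C / ρ ^ 0) := fun l hl hl' => by
    simpa using h l hl fun t ht => (hl' t ht).1
  have key : ∀ n (g : {g : ℝ → ℝ // Bd ρ (I \ {μ}) g (C / ρ ^ n)}), ∃ a : ℝ,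
      Tendsto g.1 (𝓝[≠] μ) (𝓝 a) ∧ |a| ≤ C / ρ ^ n ∧
      Bd ρ (I \ {μ}) (fun t => (t - μ)⁻¹ * (g.1 t - a)) (C / ρ ^ (n + 1)) := fun n g => by
    rw [pow_succ, ← div_div]
    exact g.2.step hρ hI
  choose A hA1 hA2 hA3 using key
  let G : ∀ n, {g : ℝ → ℝ // Bd ρ (I \ {μ}) g (C / ρ ^ n)} := fun n =>
    Nat.rec ⟨f, h0⟩ (fun n g => ⟨_, hA3 n g⟩) n
  have hG : ∀ n t, (G (n + 1)).1 t = (t - μ)⁻¹ * ((G n).1 t - A n (G n)) := fun _ _ => rfl
  have hμ : μ ∈ I := mem_of_mem_nhds hI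
  have hC : 0 ≤ C := (abs_nonneg _).trans (h.abs_le hμ)
  have a0 : A 0 (G 0) = f μ := by
    refine tendsto_nhds_unique (hA1 0 (G 0)) (Tendsto.mono_left ?_ nhdsWithin_le_nhds)
    change Tendsto f _ _
    rw [tendsto_iff_norm_sub_tendsto_zero]
    have h1 : Tendsto (fun t => C / ρ * |t - μ|) (𝓝 μ) (𝓝 (C / ρ * |μ - μ|)) :=
      Continuous.tendsto (by fun_prop) μ
    rw [sub_self, abs_zero, mul_zero] at h1
    refine squeeze_zero' (Eventually.of_forall fun _ => norm_nonneg _) ?_ h1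
    filter_upwards [hI] with t ht
    rw [Real.norm_eq_abs, div_mul_eq_mul_div, le_div_iff₀ hρ, mul_comm]
    exact h.lip hμ ht
  refine ⟨FormalMultilinearSeries.ofScalars ℝ fun n => A n (G n), hasFPowerSeriesAt_iff.2 ?_⟩
  have h2 : ∀ᶠ z in 𝓝 (0 : ℝ), μ + z ∈ I :=
    (by fun_prop : Continuous fun z => μ + z).continuousAt.eventually (by simpa using hI)
  filter_upwards [h2, Metric.ball_mem_nhds 0 hρ] with z hz hz'
  simp only [FormalMultilinearSeries.coeff_ofScalars, smul_eq_mul]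
  rcases eq_or_ne z 0 with rfl | hne
  · rw [add_zero, ← a0]
    simpa using hasSum_single (f := fun n => (0 : ℝ) ^ n * A n (G n)) 0 fun n hn => by simp [hn]
  have hq : |z| / ρ < 1 := (div_lt_one hρ).2 (by simpa using hz')
  have hq0 : 0 ≤ |z| / ρ := by positivity
  have b : ∀ n (a : ℝ), |a| ≤ C / ρ ^ n → ‖z ^ n * a‖ ≤ C * (|z| / ρ) ^ n := fun n a ha => by
    rw [Real.norm_eq_abs, abs_mul, abs_pow, div_pow]
    exact (mul_le_mul_of_nonneg_left ha (by positivity)).trans (le_of_eq (by ring))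
  have hs : Summable fun n => z ^ n * A n (G n) := Summable.of_norm_bounded
    ((summable_geometric_of_lt_one hq0 hq).mul_left C) fun n => b n _ (hA2 n _)
  rw [hs.hasSum_iff_tendsto_nat]
  have e : ∀ n, ∑ m ∈ range n, z ^ m * A m (G m) = f (μ + z) - z ^ n * (G n).1 (μ + z) := by
    intro n
    induction n with
    | zero => simp [G]
    | succ n ih =>
      rw [sum_range_succ, ih, hG, add_sub_cancel_left, pow_succ]
      field_simp
      ring
  simp only [e]
  have h3 : Tendsto (fun n => z ^ n * (G n).1 (μ + z)) atTop (𝓝 0) := by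
    have h4 := (tendsto_pow_atTop_nhds_zero_of_lt_one hq0 hq).const_mul C
    rw [mul_zero] at h4
    exact squeeze_zero_norm (fun n => b n _ ((G n).2.abs_le ⟨hz, by simpa⟩)) h4
  simpa using tendsto_const_nhds.sub h3

end An

end Vale.Agent.P144Z.DD
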