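import Vale.Agent.P144A.Stmt
import Vale.Agent.P144D.U.Dom

/-!
Estimates that are uniform in the positions of the points.
-/

namespace Vale.Agent.P144Z.AN

open Finset Filter Topology Vale.Agent.P144 U2D U4

/-- The points are apart from each other, from the complement of `D` and from infinity. -/
def Apart (D : Set ℂ) (s : ℝ) (p : Pts) : Prop :=
  (∀ i, ‖Sum.elim p.x p.y i‖ ≤ s⁻¹ ∧ Metric.ball (Sum.elim p.x p.y i) s ⊆ D) ∧
    ∀ i i', i ≠ i' → s ≤ ‖Sum.elim p.x p.y i - Sum.elim p.x p.y i'‖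

/-- The difference tends to zero uniformly over points that are apart. -/
def UDiff (D : Set ℂ) (E₀ E : Fam) (Zσ Zε : ℝ) : Prop :=
  ∀ n m : ℕ, ∀ s > (0 : ℝ), ∀ ε > (0 : ℝ), ∀ᶠ a in 𝓝[>] (0 : ℝ), ∀ p : Pts, p.n = n → p.m = m →
    Apart D s p → |corr a (E a) p - Zσ ^ p.n * Zε ^ p.m * corr a (E₀ a) p| ≤ ε

theorem UDiff.loc {D : Set ℂ} {E₀ E : Fam} {Zσ Zε : ℝ} (hD : IsOpen D) (h : UDiff D E₀ E Zσ Zε) :
    LocDiff D E₀ E Zσ Zε := by
  intro n m j
  rw [Metric.tendstoLocallyUniformlyOn_iff]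
  intro ε hε z hz
  have hc : ∀ i, Continuous fun w : (Fin n → ℂ) × (Fin m → ℂ) => Sum.elim w.1 w.2 i := by
    rintro (i | k)
    · exact (continuous_apply i).comp continuous_fst
    · exact (continuous_apply k).comp continuous_snd
  have hz' : ∀ i, Sum.elim z.1 z.2 i ∈ D := by
    rintro (i | k)
    · exact hz.2.1 i
    · exact hz.2.2.1 k
  have t0 : Tendsto (fun s : ℝ => 2 * s) (𝓝[>] 0) (𝓝 0) := by
    have : Tendsto (fun s : ℝ => 2 * s) (𝓝 0) (𝓝 (2 * 0)) := tendsto_id.const_mul 2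
    rw [mul_zero] at this
    exact this.mono_left nhdsWithin_le_nhds
  obtain ⟨s, ⟨s1, s2⟩, hs⟩ : ∃ s : ℝ, ((∀ i, ‖Sum.elim z.1 z.2 i‖ < s⁻¹ ∧
      Metric.ball (Sum.elim z.1 z.2 i) (2 * s) ⊆ D) ∧ ∀ ii : (Fin n ⊕ Fin m) × (Fin n ⊕ Fin m),
        ii.1 ≠ ii.2 → s < ‖Sum.elim z.1 z.2 ii.1 - Sum.elim z.1 z.2 ii.2‖) ∧ 0 < s := by
    refine (((eventually_all.2 fun i => Eventually.and ?_ ?_).and (eventually_all.2 fun ii =>
      ?_)).and (self_mem_nhdsWithin (a := (0 : ℝ)) (s := Set.Ioi 0))).exists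
    · exact tendsto_inv_nhdsGT_zero.eventually (eventually_gt_atTop _)
    · obtain ⟨t, ht, h1⟩ := Metric.isOpen_iff.1 hD _ (hz' i)
      exact (t0.eventually (ge_mem_nhds ht)).mono fun s hs =>
        (Metric.ball_subset_ball hs).trans h1
    · by_cases e : ii.1 = ii.2
      · exact Eventually.of_forall fun _ h' => absurd e h'
      · have : 0 < ‖Sum.elim z.1 z.2 ii.1 - Sum.elim z.1 z.2 ii.2‖ :=
          norm_pos_iff.2 (sub_ne_zero.2 fun k => e (hz.2.2.2 k))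
        filter_upwards [nhdsWithin_le_nhds (gt_mem_nhds this)] with _ h _ using h
  have hn : ∀ᶠ w in 𝓝 z, Apart D s ⟨n, m, w.1, w.2, j⟩ := by
    change ∀ᶠ w : (Fin n → ℂ) × (Fin m → ℂ) in 𝓝 z, (∀ i : Fin n ⊕ Fin m,
      ‖Sum.elim w.1 w.2 i‖ ≤ s⁻¹ ∧ Metric.ball (Sum.elim w.1 w.2 i) s ⊆ D) ∧
        ∀ ii : Fin n ⊕ Fin m, ∀ i' : Fin n ⊕ Fin m, ii ≠ i' →
          s ≤ ‖Sum.elim w.1 w.2 ii - Sum.elim w.1 w.2 i'‖
    refine Eventually.and (eventually_all.2 fun i => Eventually.and ?_ ?_)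
      (eventually_all.2 fun i => ?_)
    rotate_left 2
    refine eventually_all.2 fun i' => ?_
    rotate_left 1
    · exact ((hc i).norm.tendsto z).eventually (ge_mem_nhds (s1 i).1)
    · filter_upwards [((hc i).tendsto z).eventually (Metric.ball_mem_nhds _ hs)] with w hw
      refine Set.Subset.trans (Metric.ball_subset_ball' ?_) (s1 i).2
      have := Metric.mem_ball.1 hw
      change s + dist (Sum.elim w.1 w.2 i) _ ≤ _
      linarith
    · by_cases e : i = i'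
      · exact Eventually.of_forall fun _ h' => absurd e h'
      · exact ((((hc i).sub (hc i')).norm.tendsto z).eventually
          (le_mem_nhds (s2 (i, i') e))).mono fun _ h _ => h
  refine ⟨_, nhdsWithin_le_nhds hn, (h n m s hs _ (half_pos hε)).mono fun a ha w hw => ?_⟩
  rw [Pi.zero_apply, dist_zero_left, Real.norm_eq_abs]
  exact lt_of_le_of_lt (ha _ rfl rfl hw) (half_lt_self hε)

theorem _root_.Vale.Agent.P144Z.LocDiff.diff {D : Set ℂ} {E₀ E : Fam} {Zσ Zε : ℝ}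
    (h : LocDiff D E₀ E Zσ Zε) : Diff D E₀ E Zσ Zε := fun p hp =>
  (h p.n p.m p.j).tendsto_at (a := (p.x, p.y)) hp

theorem sepU {c B : ℝ} (hc0 : 0 < c) (hB0 : 0 ≤ B) :
    ∀ᶠ a : ℝ in 𝓝[>] (0 : ℝ), 2 ≤ ⌊c / a⌋₊ ∧ c / (2 * a) ≤ ⌊c / a⌋₊ ∧
      ∀ {ι : Type} (z : ι → ℂ) (w : ι → ℤ × ℤ), (∀ i, ‖z i‖ ≤ B) →
        (∀ i i', i ≠ i' → 4 * c ≤ ‖z i - z i'‖) →
        (∀ i, |(((w i).1 : ℤ) : ℝ) - (z i).re / a| ≤ 2 ∧ |(((w i).2 : ℤ) : ℝ) - (z i).im / a| ≤ 2) →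
        (∀ i, zd (w i) 0 ≤ ⌈2 * (B + 2) / c⌉₊ * ⌊c / a⌋₊) ∧
          ∀ i i', i ≠ i' → ⌊c / a⌋₊ < zd (w i) (w i') := by
  have h1 : ∀ᶠ a in 𝓝[>] (0 : ℝ), a < min 1 (c / 5) :=
    nhdsWithin_le_nhds (gt_mem_nhds (by positivity))
  filter_upwards [h1, self_mem_nhdsWithin] with a ha ha0
  have ha0' : 0 < a := ha0
  obtain ⟨ha1, ha2⟩ := lt_min_iff.1 ha
  have h5 : 5 < c / a := by
    rw [lt_div_iff₀ ha0']
    linarith
  have r1 : (⌊c / a⌋₊ : ℝ) ≤ c / a := Nat.floor_le (by positivity)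
  have r2 : c / a < ⌊c / a⌋₊ + 1 := Nat.lt_floor_add_one _
  have r3 : c / (2 * a) ≤ ⌊c / a⌋₊ := by
    have : c / (2 * a) = c / a / 2 := by field_simp
    linarith
  refine ⟨by exact_mod_cast (by linarith : (2 : ℝ) ≤ ⌊c / a⌋₊), r3, fun z w hB hc hw =>
    ⟨fun i => ?_, fun i i' hi => ?_⟩⟩
  · have b1 : |(z i).re / a| ≤ B / a := by
      rw [abs_div, abs_of_pos ha0']
      exact div_le_div_of_nonneg_right ((Complex.abs_re_le_norm _).trans (hB i)) ha0'.le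
    have b2 : |(z i).im / a| ≤ B / a := by
      rw [abs_div, abs_of_pos ha0']
      exact div_le_div_of_nonneg_right ((Complex.abs_im_le_norm _).trans (hB i)) ha0'.le
    have b3 : (2 : ℝ) ≤ 2 / a := by
      rw [le_div_iff₀ ha0']
      linarith
    have b4 : (zd (w i) 0 : ℝ) ≤ (B + 2) / a := by
      rw [zd_cast, add_div]
      obtain ⟨w1, w2⟩ := hw i
      rw [abs_le] at w1 w2 b1 b2
      simp only [Prod.fst_zero, Prod.snd_zero, Int.cast_zero, sub_zero, max_le_iff, abs_le]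
      refine ⟨⟨?_, ?_⟩, ?_, ?_⟩ <;> linarith [w1.1, w1.2, w2.1, w2.2, b1.1, b1.2, b2.1, b2.2]
    have b5 : (B + 2) / a ≤ (⌈2 * (B + 2) / c⌉₊ : ℝ) * ⌊c / a⌋₊ := by
      calc (B + 2) / a = 2 * (B + 2) / c * (c / (2 * a)) := by field_simp
        _ ≤ _ := mul_le_mul (Nat.le_ceil _) r3 (by positivity) (by positivity)
    exact_mod_cast b4.trans b5
  · have d1 : 2 * c ≤ max |(z i).re - (z i').re| |(z i).im - (z i').im| := by
      have k1 := (hc i i' hi).trans (Complex.norm_le_abs_re_add_abs_im _)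
      rw [Complex.sub_re, Complex.sub_im] at k1
      linarith [le_max_left |(z i).re - (z i').re| |(z i).im - (z i').im|,
        le_max_right |(z i).re - (z i').re| |(z i).im - (z i').im|]
    have d2 : 2 * (c / a) ≤ max |(z i).re / a - (z i').re / a| |(z i).im / a - (z i').im / a| := by
      rw [← sub_div, ← sub_div, abs_div, abs_div, abs_of_pos ha0', max_div_div_right ha0'.le,
        ← mul_div_assoc]
      exact div_le_div_of_nonneg_right d1 ha0'.le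
    have : (⌊c / a⌋₊ : ℝ) < zd (w i) (w i') := by
      rw [zd_cast]
      obtain ⟨w1, w2⟩ := hw i
      obtain ⟨w3, w4⟩ := hw i'
      rw [abs_le] at w1 w2 w3 w4
      rcases le_max_iff.1 d2 with h | h
      · refine lt_max_of_lt_left ?_
        rcases le_abs.1 h with h | h
        · exact lt_abs.2 (Or.inl (by linarith [w1.1, w3.2]))
        · exact lt_abs.2 (Or.inr (by linarith [w1.2, w3.1]))
      · refine lt_max_of_lt_right ?_
        rcases le_abs.1 h with h | h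
        · exact lt_abs.2 (Or.inl (by linarith [w2.1, w4.2]))
        · exact lt_abs.2 (Or.inr (by linarith [w2.2, w4.1]))
    exact_mod_cast this

theorem posU {s : ℝ} (hs : 0 < s) : ∀ᶠ a : ℝ in 𝓝[>] (0 : ℝ), 2 ≤ ⌊s / 4 / a⌋₊ ∧
    s / 4 / (2 * a) ≤ ⌊s / 4 / a⌋₊ ∧ ∀ p, Apart Set.univ s p →
      Pos (xs a p) (ys a p) ⌈2 * (s⁻¹ + 2) / (s / 4)⌉₊ ⌊s / 4 / a⌋₊ := by
  refine (sepU (c := s / 4) (B := s⁻¹) (by positivity) (by positivity)).mono fun a ha =>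
    ⟨ha.1, ha.2.1, fun p hp => ?_⟩
  obtain ⟨h1, h2⟩ := ha.2.2 _ (Sum.elim (xs a p) (ys a p)) (fun i => (hp.1 i).1)
    (fun i i' e => le_trans (by linarith) (hp.2 i i' e)) (by
    rintro (i | k)
    · simpa [xs] using fl_near a (p.x i) 0 (by simp) (by simp)
    · exact fl_near a (p.y k) (uz (p.j k)) (by unfold uz; split_ifs <;> simp)
        (by unfold uz; split_ifs <;> simp))
  exact ⟨fun i => h1 (Sum.inl i), fun k => h1 (Sum.inr k),
    fun i i' hi => h2 (Sum.inl i) (Sum.inl i') (by simpa using hi),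
    fun i k => h2 (Sum.inl i) (Sum.inr k) (by simp),
    fun k k' hk => h2 (Sum.inr k) (Sum.inr k') (by simpa using hk)⟩

theorem spinsU {D : Set ℂ} {s c : ℝ} (hc : 0 < c) (hs : 5 * c ≤ s) :
    ∀ᶠ a : ℝ in 𝓝[>] (0 : ℝ), c / (2 * a) ≤ ⌊c / a⌋₊ ∧ ∀ p, Apart D s p →
      ∀ Λ : Finset Site, (∀ x, x ∈ Λ ↔ (⟨a * x.1, a * x.2⟩ : ℂ) ∈ D) →
        Spins Λ ⌊c / a⌋₊ (Sum.elim (fun i => fl a (p.x i)) fun k => fl a (p.y k)) := by
  filter_upwards [sepU (B := s⁻¹) hc (inv_nonneg.2 (by linarith)),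
    nhdsWithin_le_nhds (gt_mem_nhds (half_pos hc)), self_mem_nhdsWithin] with a ha ha1 ha0
  have ha0' : 0 < a := ha0
  refine ⟨ha.2.1, fun p hp Λ hΛ => ?_⟩
  have e : (Sum.elim (fun i => fl a (p.x i)) fun k => fl a (p.y k)) =
      fun i => fl a (Sum.elim p.x p.y i) := by
    funext i
    cases i <;> rfl
  obtain ⟨h1, h2⟩ := hp
  rw [e]
  generalize Sum.elim p.x p.y = z at h1 h2
  have h5 : 2 < c / a := by
    rw [lt_div_iff₀ ha0']
    have : a < c / 2 := ha1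
    linarith
  have r1 : (⌊c / a⌋₊ : ℝ) ≤ c / a := Nat.floor_le (by positivity)
  have hn : ∀ i, |(((fl a (z i)).1 : ℤ) : ℝ) - (z i).re / a| ≤ 2 ∧
      |(((fl a (z i)).2 : ℤ) : ℝ) - (z i).im / a| ≤ 2 := fun i => by
    simpa using U4.fl_near a (z i) 0 (by simp) (by simp)
  refine ⟨fun i v hv => (hΛ v).2 ((h1 i).2 ?_), (ha.2.2 z _ (fun i => (h1 i).1)
    (fun i i' e => le_trans (by linarith) (h2 i i' e)) hn).2⟩
  have h6 : (zd v (fl a (z i)) : ℝ) ≤ c / a := le_trans (by exact_mod_cast hv) r1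
  rw [U4.zd_cast, max_le_iff] at h6
  have k : ∀ u w t : ℝ, |u - w| ≤ c / a → |w - t / a| ≤ 2 → |a * u - t| ≤ 2 * c := by
    intro u w t k1 k2
    have k3 : |u - t / a| ≤ 2 * (c / a) := (abs_sub_le u w _).trans (by linarith)
    rw [show a * u - t = a * (u - t / a) by field_simp, abs_mul, abs_of_pos ha0',
      show 2 * c = a * (2 * (c / a)) by field_simp]
    exact mul_le_mul_of_nonneg_left k3 ha0'.le
  rw [Metric.mem_ball, dist_eq_norm]
  refine lt_of_le_of_lt (Complex.norm_le_abs_re_add_abs_im _) ?_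
  have k1 := k _ _ _ h6.1 (hn i).1
  have k2 := k _ _ _ h6.2 (hn i).2
  simp only [Complex.sub_re, Complex.sub_im]
  linarith

/-- From estimates on the lattice to uniform estimates in a domain. -/
theorem udiff_lat {J lam β T ρ Zσ Zε : ℝ} {V : Finset Site → ℝ} {D : Set ℂ}
    {b : Option (ℝ → Config)} (hT : 0 < T) (hρ : 0 < ρ) (h1 : ∀ a > (0 : ℝ),
      (∀ x, x ∈ disc D a ↔ (⟨a * x.1, a * x.2⟩ : ℂ) ∈ D) ∧ ∀ x ∈ disc D a, a * zd x 0 ≤ T)
    (hL : ∀ n m Λ₀ : ℕ, ∀ ε > (0 : ℝ), ∃ r₀ : ℕ, ∀ r ≥ r₀, ∀ a > (0 : ℝ), 1 ≤ r → a * r ≤ ρ →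
      ∀ (x : Fin n → Site) (y : Fin m → Site) (j : Fin m → Fin 2),
        (∀ v ∈ disc D a, zd v 0 ≤ Λ₀ * r) → Spins (disc D a) r (Sum.elim x y) →
        |lcor (inDom J lam V β D b a) x y j - Zσ ^ n * Zε ^ m * lcor (crit J D b a) x y j| ≤
          ε * (r : ℝ) ^ (-((n : ℝ) / 8)) / (r : ℝ) ^ m) :
    UDiff D (crit J D b) (inDom J lam V β D b) Zσ Zε := by
  intro n m s₀ hs₀ ε hε
  obtain ⟨s, hs, hs1, hsρ⟩ : ∃ s > (0 : ℝ), 5 * s ≤ s₀ ∧ s ≤ ρ :=
    ⟨min (s₀ / 5) ρ, by positivity, by linarith [min_le_left (s₀ / 5) ρ], min_le_right _ _⟩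
  set K := ((s / 2) ^ (-(1 / 8) : ℝ)) ^ n * (s / 2)⁻¹ ^ m with hK
  have hK0 : 0 < K := by positivity
  obtain ⟨r₀, hr⟩ := hL n m ⌈2 * T / s⌉₊ (ε / K) (by positivity)
  have h3 : ∀ᶠ a in 𝓝[>] (0 : ℝ), a < s / (2 * (r₀ + 1)) :=
    nhdsWithin_le_nhds (gt_mem_nhds (by positivity))
  filter_upwards [spinsU (D := D) hs hs1, h3, self_mem_nhdsWithin] with a ⟨hrc, hP⟩ ha ha0
    p e1 e2 hp
  subst e1 e2
  have ha0' : 0 < a := ha0
  obtain ⟨d1, d2⟩ := h1 a ha0'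
  replace hP := hP p hp _ d1
  have r1 : (⌊s / a⌋₊ : ℝ) ≤ s / a := Nat.floor_le (by positivity)
  generalize ⌊s / a⌋₊ = r at hrc hP r1
  have hr0 : r₀ + 1 ≤ r := by
    have : (r₀ + 1 : ℝ) ≤ s / (2 * a) := by
      rw [lt_div_iff₀ (by positivity)] at ha
      rw [le_div_iff₀ (by positivity)]
      nlinarith
    exact_mod_cast this.trans hrc
  have hbox : ∀ v ∈ disc D a, zd v 0 ≤ ⌈2 * T / s⌉₊ * r := fun v hv => by
    have : (zd v 0 : ℝ) ≤ (⌈2 * T / s⌉₊ : ℝ) * r := by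
      calc (zd v 0 : ℝ) ≤ T / a := by
            rw [le_div_iff₀' ha0']
            exact d2 v hv
        _ = 2 * T / s * (s / (2 * a)) := by field_simp
        _ ≤ _ := mul_le_mul (Nat.le_ceil _) hrc (by positivity) (by positivity)
    exact_mod_cast this
  have k1 := hr r (by omega) a ha0' (by omega) (((le_div_iff₀' ha0').1 r1).trans hsρ) _ _ p.j
    hbox hP
  have k2 := U4.scale ha0' hs hrc p.n p.m
  unfold crit inDom at *
  rw [corr_eq, corr_eq, mul_left_comm, ← mul_sub, abs_mul, abs_of_nonneg (by positivity)]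
  refine (mul_le_mul_of_nonneg_left k1 (by positivity)).trans ?_
  rw [← hK, neg_div] at k2
  calc _ = ε / K * ((a ^ (-(1 / 8) : ℝ)) ^ p.n * a⁻¹ ^ p.m / r ^ p.m *
        (r : ℝ) ^ (-((p.n : ℝ) / 8))) := by ring
    _ ≤ ε / K * K := mul_le_mul_of_nonneg_left k2 (by positivity)
    _ = ε := by field_simp

theorem estU {J lam β Zσ Zε : ℝ} {q : Par} (hJ : 0 < J) (h : Rel J lam β q)
    (h0 : Rel J 0 (Kc / J) par0) (hM : MainOK q Zσ Zε) {n : ℕ} (hn : Even n) (m : ℕ) {s₀ : ℝ}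
    (hs₀ : 0 < s₀) {ε : ℝ} (hε : 0 < ε) :
    ∀ᶠ a in 𝓝[>] (0 : ℝ), ∀ p : Pts, p.n = n → p.m = m → Apart Set.univ s₀ p →
      ∀ᶠ M in atTop, |corr a (gibbsT J lam q.V β M) p -
        Zσ ^ p.n * Zε ^ p.m * corr a (gibbsT J 0 (fun _ => 0) (Kc / J) M) p| ≤ ε := by
  have hpos := posU hs₀
  have hc : 0 < s₀ / 4 := by positivity
  generalize ⌈2 * (s₀⁻¹ + 2) / (s₀ / 4)⌉₊ = Λ at hpos
  generalize s₀ / 4 = c at hpos hc
  obtain ⟨C, hC, hup⟩ := Z0.gibbsT_upper hJ n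
  set K := ((c / 2) ^ (-(1 / 8) : ℝ)) ^ n * (c / 2)⁻¹ ^ m with hK
  have hK0 : 0 ≤ K := by positivity
  set ε' := ε / (2 * (C * K + 1)) with hε'
  have hε0 : 0 < ε' := by positivity
  obtain ⟨r₀, hr⟩ := hM n m Λ hn ε' hε0
  have h1 : ∀ᶠ a in 𝓝[>] (0 : ℝ), a < c / (2 * (r₀ + 1)) :=
    nhdsWithin_le_nhds (gt_mem_nhds (by positivity))
  filter_upwards [hpos, h1, self_mem_nhdsWithin] with a ⟨hr2, hrc, hP⟩ ha ha0 p e1 e2 hp
  subst e1 e2
  replace hP := hP p hp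
  have ha0' : 0 < a := ha0
  set r := ⌊c / a⌋₊ with hrdef
  have hr0 : r₀ ≤ r := by
    have : (r₀ : ℝ) ≤ c / (2 * a) := by
      rw [lt_div_iff₀ (by positivity)] at ha
      rw [le_div_iff₀ (by positivity)]
      nlinarith
    exact_mod_cast this.trans hrc
  have hrp : (0 : ℝ) < r := by exact_mod_cast (by omega : 0 < r)
  obtain ⟨M₀, hM₀⟩ := hr r hr0 _ _ (ds a p) hP
  have hinj : Function.Injective (xs a p) := by
    intro i i' e
    by_contra hne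
    have := hP.xx i i' hne
    rw [e] at this
    simp [zd] at this
  have hb := hup (univ.image (xs a p)) r (by rw [card_image_of_injective _ hinj]; simp) hr2 (by
    intro u hu v hv huv
    obtain ⟨i, -, rfl⟩ := mem_image.1 hu
    obtain ⟨i', -, rfl⟩ := mem_image.1 hv
    have := hP.xx i i' fun e => huv (by rw [e])
    unfold zd at this
    rw [Int.abs_eq_natAbs, Int.abs_eq_natAbs]
    omega) par0.V
  set s := (a ^ (-(1 / 8) : ℝ)) ^ p.n * a⁻¹ ^ p.m with hs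
  have hs0 : 0 ≤ s := by positivity
  have t1 := (h.corr a hn).abs
  have t2 := ((h0.corr a hn).const_mul (Zσ ^ p.n * Zε ^ p.m)).abs
  have t3 := (h0.spins hn hinj).abs.const_mul (s * (ε' / r ^ p.m))
  have t4 := ((t1.add t2).add t3).eventually (ge_mem_nhds (show _ < ε / 2 by simpa using hε))
  filter_upwards [hb, t4, eventually_ge_atTop M₀] with M hb t4 hM
  have hm := hM₀ (M + 1) (by omega)
  have k1 : s * (ε' / r ^ p.m) * (C * (r : ℝ) ^ (-(p.n : ℝ) / 8)) ≤ ε / 2 := by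
    have := scale ha0' hc hrc p.n p.m
    calc _ = ε' * (C * (s / r ^ p.m * (r : ℝ) ^ (-(p.n : ℝ) / 8))) := by ring
      _ ≤ ε' * (C * K + 1) := by
          gcongr
          nlinarith
      _ = ε / 2 := by
          rw [hε']
          field_simp
  rw [← hs] at t4
  change |corr a (gibbsT J lam q.V β M) p -
    Zσ ^ p.n * Zε ^ p.m * corr a (gibbsT J 0 par0.V (Kc / J) M) p| ≤ ε
  generalize corr a (gibbsT J lam q.V β M) p = A at *
  generalize corr a (gibbsT J 0 par0.V (Kc / J) M) p = A₀ at *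
  generalize mix q (M + 1) (xs a p) (ys a p) (ds a p) = B at *
  generalize mix par0 (M + 1) (xs a p) (ys a p) (ds a p) = B₀ at *
  generalize Zw par0 (sec (M + 1) AA * spinG (M + 1) 0 (xs a p)) 1 /
    Zw par0 (sec (M + 1) AA) 1 = W at *
  generalize (gibbsT J 0 par0.V (Kc / J) M fun σ =>
    ∏ u ∈ univ.image (xs a p), sp (σ u)) = G at *
  generalize Zσ ^ p.n * Zε ^ p.m = Z at *
  have k2 : |W| ≤ |W - G| + C * (r : ℝ) ^ (-(p.n : ℝ) / 8) := by
    have := abs_add_le (W - G) G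
    rw [sub_add_cancel] at this
    linarith
  have k3 : |s * (B - Z * B₀)| ≤ s * (ε' / r ^ p.m) * |W - G| + ε / 2 := by
    rw [abs_mul, abs_of_nonneg hs0]
    calc _ ≤ s * (ε' / r ^ p.m * (|W - G| + C * (r : ℝ) ^ (-(p.n : ℝ) / 8))) := by
          refine mul_le_mul_of_nonneg_left (hm.trans ?_) hs0
          gcongr
      _ ≤ _ := by linarith
  have e : A - Z * A₀ = (A - s * B) - Z * (A₀ - s * B₀) + s * (B - Z * B₀) := by ring
  rw [e]
  have k4 := abs_add_le ((A - s * B) - Z * (A₀ - s * B₀)) (s * (B - Z * B₀))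
  have k5 := abs_sub (A - s * B) (Z * (A₀ - s * B₀))
  linarith

/-- The uniform estimate in the plane. -/
theorem udiff_plane {J lam β Zσ Zε : ℝ} {q : Par} (hJ : 0 < J) (h : Rel J lam β q)
    (h0 : Rel J 0 (Kc / J) par0) (hM : MainOK q Zσ Zε) {μ : MeasureTheory.Measure Config}
    (hμ : IsTorusState J lam q.V β μ) {E₀ : Fam} (hE : PlaneFam J 0 (fun _ => 0) (Kc / J) E₀) :
    UDiff Set.univ E₀ (famOf μ) Zσ Zε := by
  intro n m s hs ε hε
  have h3 : ∀ᶠ a in 𝓝[>] (0 : ℝ), ∀ p : Pts, p.n = n → p.m = m → Apart Set.univ s p →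
      ∀ᶠ M in atTop, |corr a (gibbsT J lam q.V β M) p -
        Zσ ^ p.n * Zε ^ p.m * corr a (gibbsT J 0 (fun _ => 0) (Kc / J) M) p| ≤ ε := by
    rcases Nat.even_or_odd n with hn | hn
    · exact estU hJ h h0 hM hn m hs hε
    · refine Eventually.of_forall fun a p e _ _ => Eventually.of_forall fun M => ?_
      rw [U1.corr_odd h.pot J lam β M a (e ▸ hn), U1.corr_odd U1.pot_zero J 0 _ M a (e ▸ hn)]
      simpa using hε.le
  filter_upwards [h3, self_mem_nhdsWithin] with a ha ha0 p e1 e2 hp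
  exact le_of_tendsto ((U1.state_corr hμ a p).sub
    ((U1.zero_corr hJ hE ha0 p).const_mul (Zσ ^ p.n * Zε ^ p.m))).abs (ha p e1 e2 hp)

end Vale.Agent.P144Z.AN
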