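import Vale.Agent.P144A.Core

/-!
The step below the distance of the defects, for families.
-/

namespace Vale.Agent.P144Z.AN

open Finset Matrix Geo R8 Filter

variable {T : Nd} {g : Geo}

theorem srcT {ℓ : ℕ} {h β c : ℝ} (a : Ad g ℓ h β) (hS : g.Sep 1) {z : T.ι → g.K → ℝ} (hc : 0 ≤ c)
    (hz : ∀ k, T.n abs (fun i => z i k) ≤ c) (X : Finset g.P) :
    PN T g ℓ h β X (fun i => (g.srcSt (z i)).H X) ≤ g.pn ℓ h β X ((g.srcSt fun _ => c).H X) := by
  have e : ∀ y : g.K → ℝ, (g.srcSt y).H X =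
      ∑ k ∈ univ.filter (fun k => star (g.src k).y = X), y k • g.bE k := fun y =>
    (zero_add _).trans (car_src y X)
  simp only [e]
  by_cases h1 : ∃ k, star (g.src k).y = X
  · obtain ⟨k, hk⟩ := h1
    have e1 : univ.filter (fun k => star (g.src k).y = X) = {k} :=
      eq_singleton_iff_unique_mem.2 ⟨mem_filter.2 ⟨mem_univ _, hk⟩, fun k' hk' =>
        (sep_eq hS (G.tdist_star (by rw [hk, ← (mem_filter.1 hk').2]; exact G.mem_star_self _))).symm⟩
    simp only [e1, sum_singleton]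
    rw [a.smul, abs_of_nonneg hc]
    exact (PN_scal a _ _).trans (mul_le_mul_of_nonneg_right (hz k) (pn_nonneg _ _))
  · simp only [filter_eq_empty_iff.2 fun k _ hk => h1 ⟨k, hk⟩, sum_empty, PN_zero a]
    exact pn_nonneg _ _

/-- The well-formed local terms. -/
def wfV (g : Geo) : Submodule ℝ (g.P → g.E) where
  carrier := {v | g.Wf ⟨0, v, 0⟩}
  zero_mem' := (wf_srcSt 0).1
  add_mem' {v w} hv hw := ⟨rfl, fun _ => zero_mem _, fun _ => map_zero _,
    fun x => add_mem (hv.vmem x) (hw.vmem x),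
    fun x => (map_add _ _ _).trans (by rw [hv.vnoF x, hw.vnoF x, add_zero]),
    fun x => (map_add _ _ _).trans (congrArg₂ _ (hv.vnoB x) (hw.vnoB x)), fun x C hC => by
      obtain ⟨a, ha⟩ := hv.vquad x C hC
      obtain ⟨b, hb⟩ := hw.vquad x C hC
      refine ⟨a + b, (map_add _ _ _).trans ?_⟩
      rw [ha, hb, add_smul]
      exact add_add_add_comm _ _ _ _⟩
  smul_mem' c v hv := by
    refine ⟨rfl, fun _ => zero_mem _, fun _ => map_zero _,
      fun x => Subalgebra.smul_mem _ (hv.vmem x) c, fun x => ?_, fun x => ?_, fun x C hC => ?_⟩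
    all_goals simp only [Pi.smul_apply, map_smul]
    · rw [hv.vnoF x, smul_zero]
    · rw [hv.vnoB x]
    · obtain ⟨a, ha⟩ := hv.vquad x C hC
      exact ⟨c * a, by rw [ha, smul_add, smul_smul]⟩

theorem car_sub (s : g.St) (X : Finset g.P) : s.car X - (g.srcSt s.z).car X =
    ∑ x ∈ univ.filter (fun x => star x = X), s.v x := by
  rw [car_src, St.car, add_sub_cancel_right]

theorem carT3 {ℓ ℓ' : ℕ} {h β h' β' c : ℝ} (hc : 0 ≤ c) {X : Finset g.P} (H : ∀ s, g.Wf s →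
    g.pn ℓ' h' β' X (g.dp ℓ X (s.car X - (g.srcSt s.z).car X)) ≤
      c * g.pn ℓ h β X (g.dp ℓ X (s.car X - (g.srcSt s.z).car X))) {s : T.ι → g.St}
    (hs : ∀ i, g.Wf (s i)) :
    PN T g ℓ' h' β' X (fun i => g.dp ℓ X ((s i).car X - (g.srcSt (s i).z).car X)) ≤
      c * PN T g ℓ h β X fun i => g.dp ℓ X ((s i).car X - (g.srcSt (s i).z).car X) := by
  have l : IsLinearMap ℝ fun v : g.P → g.E =>
      g.dp ℓ X (∑ x ∈ univ.filter (fun x => star x = X), v x) :=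
    lin_comp (lin_dp X) (lin_sum _ fun x => lin_eval x)
  simp only [car_sub] at H ⊢
  have m : ∀ i, (s i).v ∈ wfV g := fun i => show g.Wf ⟨0, (s i).v, 0⟩ from
    ⟨rfl, fun _ => zero_mem _, fun _ => map_zero _, (hs i).vmem, (hs i).vnoF, (hs i).vnoB,
      (hs i).vquad⟩
  have := tr2 (T := T) (φ := g.pn ℓ' h' β' X) (ψ := g.pn ℓ h β X) (wfV g) m l l zero_le_one hc
    fun v hv => (mul_one _).trans_le (H ⟨0, v, 0⟩ hv)
  rwa [mul_one] at this

/-- The step below the distance of the defects. -/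
theorem step_earlyT : ∃ L₀ : ℕ, ∀ L ≥ L₀, ∃ C : ℝ, 1 ≤ C ∧ ∀ (T : Nd) (g : Geo), IsSign g.A →
    (∀ k, (g.src k).on = true) → ∀ j ℓ : ℕ, j < g.J → 8 ≤ ℓ → 16 * (L * ℓ) ≤ g.M →
    g.Sep (8 * (L * ℓ)) → ∀ h h' δ : ℝ, (L : ℝ) ^ 2 ≤ h → h ≤ h' → h' ≤ 2 * h → 0 < δ → C * δ ≤ 1 →
    ∀ s : T.ι → g.St, (∀ i, g.Wf (s i)) → (∀ k, T.n abs (fun i => (s i).z k) ≤ 2) →
    ∀ D b : ℝ, D ≤ δ → b ≤ δ →
    Anch ℓ L (dfT T g ℓ h (δ * ℓ / h ^ 2) s fun i => g.srcSt (s i).z) D →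
    Anch ℓ L (bfT T g ℓ h s) b →
      Anch (L * ℓ) L (dfT T g (L * ℓ) h' (δ * (L * ℓ : ℕ) / h' ^ 2)
        (fun i => g.step j ℓ (L * ℓ) 0 (s i))
        fun i => g.srcSt (g.step j ℓ (L * ℓ) 0 (s i)).z) (D / 2 + C * b) ∧
      (∀ k, δ * T.n abs (fun i => (g.step j ℓ (L * ℓ) 0 (s i)).z k - (s i).z k) ≤ C * (D + b)) ∧
      Anch (L * ℓ) (2 * L) (fun U => PN T g ℓ (h / 2) (δ * ℓ / h ^ 2) U fun i =>
        g.intg ℓ (L * ℓ) (s i) U - g.intg ℓ (L * ℓ) (g.srcSt (s i).z) U) (C * (D + b)) := by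
  classical
  obtain ⟨L₁, hP⟩ := cl_P
  obtain ⟨L₃, hT⟩ := cl_PT
  obtain ⟨Ch, hCh, hH⟩ := hyp_early
  obtain ⟨Cd, hCd, hd⟩ := df_srcSt
  obtain ⟨Cx, hCx, hX⟩ := ext_le
  obtain ⟨L₂, hL₂⟩ := eventually_atTop.1 ((ev_exp (800 * (4 * Ch))).and
    ((ev_sqrt (676 * Real.exp 6 * (2 * Ch))).and
      (tendsto_natCast_atTop_atTop.eventually_ge_atTop (2 * Ch))))
  refine ⟨max (max (max L₁ L₃) L₂) 60, fun L hL => ?_⟩
  simp only [ge_iff_le, max_le_iff] at hL
  obtain ⟨⟨⟨l1, l3⟩, l2⟩, hL60⟩ := hL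
  obtain ⟨C₀, hC₀, hP⟩ := hP L l1
  obtain ⟨Cc, hCc, hT⟩ := hT L l3
  obtain ⟨hE1, hE2, hE3⟩ := hL₂ L l2
  have hL60' : (60 : ℝ) ≤ L := by exact_mod_cast hL60
  set A := 1200 * Real.exp 6 * (4 * Ch * L + 3 * (20 * Ch ^ 2)) with hA
  set B := 2 + 2 * (Cd * Real.exp L) with hB
  have hA0 : 0 ≤ A := by positivity
  have hB0 : 1 ≤ B := by have : 0 ≤ Cd * Real.exp L := by positivity
                         linarith
  have h1 : 0 ≤ A * Cc * B := by positivity
  have h2 : 0 ≤ A * L ^ 2 := by positivity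
  have h3 : Cc ≤ Cc * B := le_mul_of_one_le_right (by linarith) hB0
  have h4 : 0 ≤ 4 * Cx * (2 * Cc + 1) := by positivity
  refine ⟨4 * (A * Cc * B) + A * L ^ 2 + Cc * B + 4 * Cx * (2 * Cc + 1) + 1, by linarith,
    fun T g hA' hon j ℓ hj hl hM hS h h' δ hh hhh hh2 hδ hCδ s hs hz D b hD hb aD ab => ?_⟩
  have hh0 : 0 < h := by nlinarith
  have hl0 : (0 : ℝ) < ℓ := by positivity
  have a : Ad g ℓ h (δ * ℓ / h ^ 2) := ⟨hA', by omega, hh0, by positivity⟩
  have h60 : 60 * ℓ ≤ L * ℓ := Nat.mul_le_mul_right ℓ hL60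
  have hD0 := G.anch_nonneg dfT_nonneg aD
  have hb0 := G.anch_nonneg bfT_nonneg ab
  have ae := hd L g hA' ℓ hl (by omega) (sep_mono hS (by omega)) h δ hh0 hδ _
    (wf_srcSt fun _ => 2).1 (fun _ => 2) 0 2 0 zero_le_two (fun k => by simp) (fun z => by
      simp only [Geo.df, sub_self, dp_zero, a.zero, add_zero, zero_mul, sum_const_zero, le_refl])
  rw [zero_add] at ae
  have ae' : Anch ℓ L (fun X => PN T g ℓ h (δ * ℓ / h ^ 2) X fun i => (g.srcSt (s i).z).H X)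
      (Cd * Real.exp L * δ * 2) := anch_mono ae (fun X => by
    have h3 := pn_H_sub a (wf_srcSt fun _ => 2).1 (wf_srcSt 0).2 X
    rw [H_src_zero, sub_zero, bf_free a (wf_srcSt _).1 (wf_srcSt _).2, add_zero] at h3
    exact (srcT a (sep_mono hS (by omega)) zero_le_two hz X).trans h3) le_rfl
  have e0 := G.anch_nonneg (fun _ => PN_nonneg _ _) ae'
  have b2 := anch_mono (anch_add aD ab) (pn_H_subT a hs fun i => (wf_srcSt (s i).z).2) le_rfl
  have hε : D + b + Cd * Real.exp L * δ * 2 ≤ B * δ := by rw [hB]; linarith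
  have hE' := (hP g ℓ h _ a hl hh).1
  have h5 := mul_le_mul_of_nonneg_left hε (by linarith : 0 ≤ Cc)
  have h6 := mul_le_mul_of_nonneg_left hε (by positivity : 0 ≤ A * Cc)
  have h7 := mul_nonneg h1 hδ.le
  have h8 := mul_nonneg h2 hδ.le
  have h9 := mul_nonneg h4 hδ.le
  have h10 := mul_nonneg (by linarith : 0 ≤ Cc * B) hδ.le
  obtain ⟨c2, c3⟩ := hT T g ℓ h _ a hl hh s _ hs (fun i => (wf_srcSt (s i).z).1)
    (D + b + Cd * Real.exp L * δ * 2) _ (by linarith) (anch_mono (anch_add b2 ae') (fun X => by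
      simpa only [sub_add_cancel] using PN_add a (X := X)
        (fun i => (s i).H X - (g.srcSt (s i).z).H X) fun i => (g.srcSt (s i).z).H X) le_rfl)
    (anch_mono ae' (fun _ => le_rfl) (by linarith)) b2
  have H := fun s hs => hH g L ℓ j h h' δ hA' hon hj hl hM hS hL60 hE3 hh0 hhh hh2 hδ s hs hE'
  have H₀ := H _ (wf_srcSt 0).1
  refine ⟨anch_mono (coreT H₀ (fun i => H _ (hs i)) (fun X hX => ?_)
    (lcov_of_sep (sep_mono hS (by omega))) aD ab c2) (fun _ => le_rfl) ?_, fun k => ?_,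
    anch_mono c3 (fun _ => le_rfl) (mul_le_mul_of_nonneg_right (by linarith) (by linarith))⟩
  · exact carT3 H₀.ks0 (fun s hs => (H s hs).T3 X hX) hs
  · refine finish ?_ (by linarith) (by linarith) hD0 hb0
    rw [Nat.cast_one]
    linarith
  · have b3 := sum_mem_le (by positivity) (fun _ => PN_nonneg _ _) c3 (g.src k).y
      (univ.filter fun U => g.XtrB j ℓ (L * ℓ) U k) fun U hU => (mem_filter.1 hU).2.2.1
    have b4 := sum_mem_le (by positivity) (fun X => add_nonneg (dfT_nonneg X) (bfT_nonneg X))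
      (anch_add aD ab) (g.src k).y
      (univ.filter fun U => g.XtrB j ℓ (L * ℓ) U k) fun U hU => (mem_filter.1 hU).2.2.1
    have b5 : ∀ U ∈ univ.filter (fun U => g.XtrB j ℓ (L * ℓ) U k),
        δ * T.n abs (fun i => g.zt k (g.rem ℓ (L * ℓ) (s i) U)) ≤ 4 * Cx *
          (2 * PN T g ℓ (h / 2) (δ * ℓ / h ^ 2) U (fun i =>
            g.intg ℓ (L * ℓ) (s i) U - g.intg ℓ (L * ℓ) (g.srcSt (s i).z) U) +
          (dfT T g ℓ h (δ * ℓ / h ^ 2) s (fun i => g.srcSt (s i).z) U + bfT T g ℓ h s U)) := by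
      intro U hU
      have hk := (mem_filter.1 hU).2
      have d3 : T.n abs (fun i => g.zt k (g.rem ℓ (L * ℓ) (s i) U)) * (δ / 4) ≤
          Cx * PN T g ℓ (h / 2) (δ * ℓ / h ^ 2) U fun i => g.rem ℓ (L * ℓ) (s i) U :=
        tr2 (g.sub U).toSubmodule (fun i => ((hs i).rem_mem ℓ (L * ℓ) U).1) (lin_zt k) lin_id
          (by positivity) (by linarith) fun F hF => by
            have d1 := (hX g L ℓ h _ h' _ a H₀.a' (by omega) hl hM hh2 U hk.1 _ hk.2.1 F hF).2 k rfl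
            have d2 : δ * ℓ / h ^ 2 * (h / 2) ^ 2 = δ / 4 * ℓ := by field_simp; norm_num
            rw [d2] at d1
            exact le_of_mul_le_mul_left (by linarith) hl0
      have d4 : ∀ i, g.rem ℓ (L * ℓ) (s i) U =
          ((g.intg ℓ (L * ℓ) (s i) U - g.intg ℓ (L * ℓ) (g.srcSt (s i).z) U) -
            g.noF (g.intg ℓ (L * ℓ) (s i) U - g.intg ℓ (L * ℓ) (g.srcSt (s i).z) U)) -
          ((s i).car U - (g.srcSt (s i).z).car U) := fun i => by
        have d5 := rem_src hA' (ℓ := ℓ) (ℓ' := L * ℓ) (by omega) (by omega)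
          (sep_mono hS (by omega)) (s i).z U
        rw [Geo.rem] at d5
        rw [Geo.rem, map_sub]
        linear_combination (exp := 1) d5
      have d6 := PN_noF (T := T) a.half fun i =>
        sub_mem ((hs i).Cl_mem H₀.anti U) ((wf_srcSt (s i).z).1.Cl_mem H₀.anti U)
      have d7 := PN_half (T := T) a fun i => (H _ (hs i)).dc_mem U
      have d8 := PN_split a ℓ U fun i => (s i).car U - (g.srcSt (s i).z).car U
      have d9 := bf_splitT a hs (fun i => (wf_srcSt (s i).z).2) U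
      have d10 := PN_nonneg (ℓ := ℓ) (h := h) (β := δ * ℓ / h ^ 2) U
        fun i => bp g ℓ U ((s i).K U - (g.srcSt (s i).z).K U)
      have d11 := PN_nonneg (ℓ := ℓ) (h := h) (β := δ * ℓ / h ^ 2) U
        fun i => g.dp ℓ U ((s i).K U - (g.srcSt (s i).z).K U)
      have d12 : PN T g ℓ (h / 2) (δ * ℓ / h ^ 2) U (fun i => g.rem ℓ (L * ℓ) (s i) U) ≤
          2 * PN T g ℓ (h / 2) (δ * ℓ / h ^ 2) U (fun i =>
            g.intg ℓ (L * ℓ) (s i) U - g.intg ℓ (L * ℓ) (g.srcSt (s i).z) U) +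
          (dfT T g ℓ h (δ * ℓ / h ^ 2) s (fun i => g.srcSt (s i).z) U + bfT T g ℓ h s U) := by
        simp only [d4, dfT]
        refine (PN_sub a.half _ _).trans ?_
        unfold Geo.intg
        linarith
      have d13 := mul_le_mul_of_nonneg_left d12 (by linarith : 0 ≤ Cx)
      linarith
    simp only [Geo.step, add_sub_cancel_left]
    refine (mul_le_mul_of_nonneg_left (Nd.sn_abs.sum' _ _) hδ.le).trans ?_
    rw [mul_sum]
    refine (sum_le_sum b5).trans ?_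
    rw [← mul_sum, sum_add_distrib, ← mul_sum]
    have b6 := mul_le_mul_of_nonneg_left (add_le_add (mul_le_mul_of_nonneg_left b3 zero_le_two) b4)
      (by linarith : 0 ≤ 4 * Cx)
    have b7 := mul_nonneg (by linarith : 0 ≤ 4 * (A * Cc * B) + A * L ^ 2 + Cc * B + 1)
      (add_nonneg hD0 hb0)
    linarith

end Vale.Agent.P144Z.AN
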