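import Vale.Agent.P144A.DD
import Vale.Agent.P144Z.B4.Main
import Vale.Agent.P144Z.B1.Main

/-!
Finite families indexed by nodes, their norms, and the cluster expansion for families.
-/

namespace Vale.Agent.P144Z

open Finset Filter Topology DD

/-- A finite family of distinct real nodes with a weight. -/
structure Nd where
  ι : Type
  [fin : Fintype ι]
  x : ι → ℝ
  l : List ι
  cov : ∀ i, i ∈ l
  nd : (l.map x).Nodup
  ρ : ℝ
  ρ0 : 0 ≤ ρ

attribute [instance] Nd.fin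

namespace Nd

variable (T : Nd) {U V W : Type} [AddCommGroup U] [Module ℝ U]
  [AddCommGroup V] [Module ℝ V] [AddCommGroup W] [Module ℝ W]

/-- The norm of a family. -/
noncomputable def n (φ : V → ℝ) (f : T.ι → V) : ℝ := N T.x T.ρ φ T.l f

variable {T} {φ ψ : V → ℝ} {f g : T.ι → V}

theorem nonneg (φ : V → ℝ) (f : T.ι → V) : 0 ≤ T.n φ f := N_nonneg _ _

theorem n_le {c : ℝ} (hc : 0 ≤ c) (h : ∀ l, l <:+ T.l → R T.x T.ρ φ l f ≤ c) : T.n φ f ≤ c :=
  N_le hc h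

theorem le_n {l : List T.ι} (h : l <:+ T.l) (f : T.ι → V) : R T.x T.ρ φ l f ≤ T.n φ f := le_N h f

theorem mono (S : Submodule ℝ V) (hf : ∀ i, f i ∈ S) (h : ∀ v ∈ S, φ v ≤ ψ v) :
    T.n φ f ≤ T.n ψ f :=
  n_le (nonneg _ _) fun l hl => (R_mono T.ρ0 S h l hf).trans (le_n hl f)

theorem mono' (h : ∀ v, φ v ≤ ψ v) (f : T.ι → V) : T.n φ f ≤ T.n ψ f :=
  mono ⊤ (fun _ => trivial) fun v _ => h v

theorem map (A : U →ₗ[ℝ] V) (f : T.ι → U) :
    T.n φ (fun i => A (f i)) = T.n (fun u => φ (A u)) f :=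
  le_antisymm (n_le (nonneg _ _) fun l hl => (R_map A l f).trans_le (le_n hl f))
    (n_le (nonneg _ _) fun l hl => (R_map A l f).symm.trans_le (le_n hl _))

theorem add_le (f : T.ι → V) : T.n (fun v => φ v + ψ v) f ≤ T.n φ f + T.n ψ f :=
  n_le (add_nonneg (nonneg _ _) (nonneg _ _)) fun l hl =>
    (R_add l f).trans_le (add_le_add (le_n hl f) (le_n hl f))

theorem mul_le {c : ℝ} (hc : 0 ≤ c) (f : T.ι → V) : T.n (fun v => c * φ v) f ≤ c * T.n φ f :=
  n_le (mul_nonneg hc (nonneg _ _)) fun l hl =>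
    (R_mul c l f).trans_le (mul_le_mul_of_nonneg_left (le_n hl f) hc)

theorem mul_eq {c : ℝ} (hc : 0 ≤ c) (f : T.ι → V) : T.n (fun v => c * φ v) f = c * T.n φ f := by
  refine le_antisymm (mul_le hc f) ?_
  rcases hc.eq_or_lt with rfl | hc
  · rw [zero_mul]
    exact nonneg _ _
  have h := mul_le (φ := fun v => c * φ v) (inv_nonneg.2 hc.le) f
  simp only [inv_mul_cancel_left₀ hc.ne'] at h
  rwa [le_inv_mul_iff₀ hc] at h

theorem sum_le {κ : Type} (s : Finset κ) (φ : κ → V → ℝ) (f : T.ι → V) :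
    T.n (fun v => ∑ k ∈ s, φ k v) f ≤ ∑ k ∈ s, T.n (φ k) f := by
  classical
  induction s using Finset.induction_on with
  | empty =>
    simpa using mul_le (φ := fun _ => 0) le_rfl f
  | insert k s hk ih =>
    simp only [sum_insert hk]
    exact (add_le f).trans (add_le_add le_rfl ih)

theorem pt (h : ∀ v, 0 ≤ φ v) (f : T.ι → V) (i : T.ι) : φ (f i) ≤ T.n φ f :=
  pt_le T.ρ0 h (T.cov i) f

theorem const (h : φ 0 = 0) {v : V} (hv : 0 ≤ φ v) : T.n φ (fun _ => v) ≤ φ v :=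
  n_le hv fun l _ => R_const h hv l

theorem addf (h : ∀ v w, φ (v + w) ≤ φ v + φ w) (f g : T.ι → V) :
    T.n φ (f + g) ≤ T.n φ f + T.n φ g :=
  n_le (add_nonneg (nonneg _ _) (nonneg _ _)) fun l hl =>
    (R_addf T.ρ0 h l f g).trans (add_le_add (le_n hl f) (le_n hl g))

theorem bil {χ : U → ℝ} {ψ : W → ℝ} (B : V →ₗ[ℝ] W →ₗ[ℝ] U)
    (hχ : ∀ v w, χ (v + w) ≤ χ v + χ w) (hφ : ∀ v, 0 ≤ φ v) (hB : ∀ v w, χ (B v w) ≤ φ v * ψ w)
    (f : T.ι → V) (g : T.ι → W) : T.n χ (fun i => B (f i) (g i)) ≤ T.n φ f * T.n ψ g :=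
  n_le (mul_nonneg (nonneg _ _) (nonneg _ _)) fun l hl =>
    (R_bil T.ρ0 B hχ hφ hB l f g).trans (mul_le_mul (le_n hl f) (N_tail hl g) (N_nonneg _ _)
      (nonneg _ _))

theorem n_x {c : ℝ} (hc : 0 ≤ c) (h : ∀ i, |T.x i| ≤ c) : T.n abs T.x ≤ c + T.ρ :=
  n_le (add_nonneg hc T.ρ0) fun _ hl => R_x T.ρ0 (T.nd.sublist (hl.sublist.map _)) hc h

theorem le_of_lim [TopologicalSpace V] [IsTopologicalAddGroup V] [ContinuousSMul ℝ V]
    (hφ : Continuous φ) {α : Type} {𝓕 : Filter α} [𝓕.NeBot] {F : α → T.ι → V} {c : ℝ}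
    (h : ∀ i, Tendsto (fun a => F a i) 𝓕 (𝓝 (f i))) (hc : ∀ᶠ a in 𝓕, T.n φ (F a) ≤ c) :
    T.n φ f ≤ c := le_of_tendsto (N_tendsto hφ h) hc

/-- The transfer of a linear estimate. -/
theorem tr (S : Submodule ℝ U) {f : T.ι → U} (hf : ∀ i, f i ∈ S) (A : U →ₗ[ℝ] V) {ψ : U → ℝ}
    {c : ℝ} (hc : 0 ≤ c) (h : ∀ u ∈ S, φ (A u) ≤ c * ψ u) :
    T.n φ (fun i => A (f i)) ≤ c * T.n ψ f :=
  (map A f).trans_le ((mono S hf h).trans (mul_le hc f))

/-- The same with a weight on the left. -/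
theorem tr' (S : Submodule ℝ U) {f : T.ι → U} (hf : ∀ i, f i ∈ S) (A : U →ₗ[ℝ] V) {ψ : U → ℝ}
    {w c : ℝ} (hw : 0 ≤ w) (hc : 0 ≤ c) (h : ∀ u ∈ S, φ (A u) * w ≤ c * ψ u) :
    T.n φ (fun i => A (f i)) * w ≤ c * T.n ψ f := by
  rw [mul_comm, ← mul_eq hw]
  exact tr S hf A hc fun u hu => (mul_comm _ _).trans_le (h u hu)

/-- Seminorms. -/
structure Sn (φ : V → ℝ) : Prop where
  add : ∀ v w, φ (v + w) ≤ φ v + φ w
  smul : ∀ (c : ℝ) v, φ (c • v) = |c| * φ v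

namespace Sn

variable (h : Sn φ)
include h

theorem zero : φ 0 = 0 := by simpa using h.smul 0 0

theorem neg (v : V) : φ (-v) = φ v := by simpa using h.smul (-1) v

theorem nn (v : V) : 0 ≤ φ v := by
  have := h.add v (-v)
  rw [add_neg_cancel, h.zero, h.neg] at this
  linarith

theorem sub (v w : V) : φ (v - w) ≤ φ v + φ w := by
  rw [sub_eq_add_neg, ← h.neg w]
  exact h.add _ _

theorem sum {κ : Type} (s : Finset κ) (F : κ → V) : φ (∑ k ∈ s, F k) ≤ ∑ k ∈ s, φ (F k) :=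
  le_sum_of_subadditive φ h.zero.le h.add s F

/-- The norm of families is a seminorm. -/
theorem fam (T : Nd) : Sn (T.n φ) where
  add := addf h.add
  smul c f := by
    rw [← mul_eq (abs_nonneg c), ← funext (h.smul c)]
    exact map (c • LinearMap.id) f

theorem add' (f g : T.ι → V) : T.n φ (fun i => f i + g i) ≤ T.n φ f + T.n φ g := (h.fam T).add f g

theorem sub' (f g : T.ι → V) : T.n φ (fun i => f i - g i) ≤ T.n φ f + T.n φ g := (h.fam T).sub f g

theorem smul' (c : ℝ) (f : T.ι → V) : T.n φ (fun i => c • f i) = |c| * T.n φ f :=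
  (h.fam T).smul c f

theorem neg' (f : T.ι → V) : T.n φ (fun i => -f i) = T.n φ f := (h.fam T).neg f

theorem zero' : T.n φ (fun _ => 0) = 0 := (h.fam T).zero

theorem sum' {κ : Type} (s : Finset κ) (F : κ → T.ι → V) :
    T.n φ (fun i => ∑ k ∈ s, F k i) ≤ ∑ k ∈ s, T.n φ (F k) := by
  rw [← Finset.sum_fn]
  exact (h.fam T).sum s F

theorem const' (v : V) : T.n φ (fun _ => v) ≤ φ v := const h.zero (h.nn v)

/-- A family of scalars times a fixed vector. -/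
theorem scal (a : T.ι → ℝ) (v : V) : T.n φ (fun i => a i • v) ≤ T.n abs a * φ v := by
  rw [mul_comm]
  exact tr ⊤ (fun _ => trivial) (LinearMap.toSpanSingleton ℝ V v) (h.nn v) fun c _ =>
    (h.smul c v).trans_le (mul_comm _ _).le

end Sn

theorem sn_abs : Sn (abs : ℝ → ℝ) := ⟨abs_add_le, abs_mul⟩

theorem abs_mul' (a b : T.ι → ℝ) : T.n abs (fun i => a i * b i) ≤ T.n abs a * T.n abs b :=
  bil (LinearMap.mul ℝ ℝ) abs_add_le abs_nonneg (fun v w => (abs_mul v w).le) a b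

theorem abs_cmul (c : ℝ) (a : T.ι → ℝ) : T.n abs (fun i => c * a i) = |c| * T.n abs a :=
  sn_abs.smul' c a

/-- The logarithm of a family close to one. -/
theorem log_le {y : T.ι → ℝ} (hy : T.n abs y ≤ 1 / 2) :
    T.n abs (fun i => Real.log (1 + y i)) ≤ 2 * T.n abs y := by
  obtain ⟨g, -, h1, h2⟩ := (sub_exp_log (𝒜 := T.ι → ℝ) ⊤ (T.n abs) (nonneg _)
    (fun F _ G _ => sn_abs.add' F G) (fun c F _ => sn_abs.smul' c F) (fun F _ G _ => abs_mul' F G)
    ((sn_abs.const' 1).trans abs_one.le) fun F _ h => funext fun i =>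
      abs_nonpos_iff.1 ((pt abs_nonneg F i).trans h.le)).2 y trivial hy
  refine le_of_eq_of_le (congrArg _ (funext fun i => ?_)) h2
  have h3 := congrFun h1 i
  rw [Pi.coe_exp, ← Real.exp_eq_exp_ℝ, Pi.add_apply, Pi.one_apply] at h3
  rw [← h3, Real.log_exp]

/-- The inverse of a family close to one. -/
theorem inv_le {y : T.ι → ℝ} (hy : T.n abs y ≤ 1 / 2) :
    T.n abs (fun i => (1 + y i)⁻¹) ≤ 2 := by
  have e : (fun i => (1 + y i)⁻¹) = fun i => 1 - y i * (1 + y i)⁻¹ := funext fun i => by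
    have := abs_le.1 ((pt abs_nonneg y i).trans hy)
    have h0 : 1 + y i ≠ 0 := by linarith
    field_simp
    ring
  have h1 := sn_abs.sub' (T := T) (fun _ => 1) fun i => y i * (1 + y i)⁻¹
  rw [← e] at h1
  have h2 := (abs_mul' y fun i => (1 + y i)⁻¹).trans
    (mul_le_mul_of_nonneg_right hy (nonneg _ _))
  have h3 := (sn_abs.const' (T := T) 1).trans abs_one.le
  linarith

/-- Bounded norms of all the families of values give analyticity. -/
theorem analytic {f : ℝ → ℝ} {a ρ C : ℝ} (hρ : 0 < ρ)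
    (h : ∀ T : Nd, T.ρ = ρ → (∀ i, |T.x i| < a) → T.n abs (fun i => f (T.x i)) ≤ C) :
    AnalyticOnNhd ℝ f (Set.Ioo (-a) a) := by
  classical
  refine fun μ hμ => Bd.analyticAt (C := C) hρ (isOpen_Ioo.mem_nhds hμ) fun l hl hl' => ?_
  have h1 := h ⟨{t // t ∈ l}, Subtype.val, l.attach, List.mem_attach l, by simpa using hl, ρ, hρ.le⟩
    rfl fun i => abs_lt.2 (hl' _ i.2)
  have h2 : R Subtype.val ρ abs l.attach (fun i => f i.1) ≤ C := (R_le_N _ _).trans h1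
  rwa [R_comp, List.attach_map_subtype_val] at h2

section Loc

variable {P : Type} {𝒜 𝒜' ℬ : Type} [NormedCommRing 𝒜] [NormedAlgebra ℝ 𝒜] [NormedCommRing 𝒜']
  [NormedAlgebra ℝ 𝒜'] [NormedCommRing ℬ] [NormedAlgebra ℝ ℬ]

theorem sn_p (L : LocSys P 𝒜) (X : Finset P) : Sn (L.p X) := ⟨L.p_add X, L.p_smul X⟩

/-- The local system of the families. -/
noncomputable def fam (T : Nd) (L : LocSys P 𝒜) : LocSys P (T.ι → 𝒜) where
  sub X := Subalgebra.pi Set.univ fun _ => L.sub X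
  p X := T.n (L.p X)
  mono h _ hF := fun i hi => L.mono h (hF i hi)
  p_nonneg _ := nonneg _
  p_add X := ((sn_p L X).fam T).add
  p_smul X := ((sn_p L X).fam T).smul
  p_mul X F G := bil (LinearMap.mul ℝ 𝒜) (L.p_add X) (L.p_nonneg X) (L.p_mul X) F G
  p_one X := ((sn_p L X).const' 1).trans (L.p_one X)
  p_mono {X _ _} h hF := mono (L.sub X).toSubmodule (fun i => hF i trivial) fun _ hv =>
    L.p_mono h hv
  p_def {X F} hF h := funext fun i => L.p_def (hF i trivial)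
    (le_antisymm ((pt (L.p_nonneg X) F i).trans h.le) (L.p_nonneg X _))

theorem mem_fam {L : LocSys P 𝒜} {X : Finset P} {F : T.ι → 𝒜} :
    F ∈ (T.fam L).sub X ↔ ∀ i, F i ∈ L.sub X := ⟨fun h i => h i trivial, fun h i _ => h i⟩

theorem isExp_fam [DecidableEq P] {Z : Size P} {L : LocSys P 𝒜} {L' : LocSys P 𝒜'} {κ : ℝ}
    {E : 𝒜 →ₗ[ℝ] 𝒜'} (hE : IsExp Z L L' κ E) :
    IsExp Z (T.fam L) (T.fam L') κ (E.compLeft T.ι) where
  one := funext fun _ => hE.one
  mem hF := mem_fam.2 fun i => hE.mem (mem_fam.1 hF i)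
  le {X _} hF := tr (L.sub X).toSubmodule (mem_fam.1 hF) E (Real.exp_pos _).le fun _ hv => hE.le hv
  mul hF hG h := funext fun i => hE.mul (mem_fam.1 hF i) (mem_fam.1 hG i) h

theorem exp_apply [CompleteSpace 𝒜] (F : T.ι → 𝒜) (i : T.ι) :
    NormedSpace.exp F i = NormedSpace.exp (F i) :=
  KP.map_exp' (Pi.evalAlgHom ℝ (fun _ => 𝒜) i) (continuous_apply i) F

theorem inj_fam [CompleteSpace 𝒜] (h : Function.Injective (NormedSpace.exp : 𝒜 → 𝒜)) :
    Function.Injective (NormedSpace.exp : (T.ι → 𝒜) → T.ι → 𝒜) := fun F G e =>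
  funext fun i => h (by rw [← exp_apply, ← exp_apply, e])

/-- The localized logarithm of a family is the family of the localized logarithms. -/
theorem Cl_apply [DecidableEq P] [CompleteSpace 𝒜] [CompleteSpace 𝒜'] [CompleteSpace ℬ]
    (hinj : Function.Injective (NormedSpace.exp : 𝒜' → 𝒜')) {E : ℬ →ₗ[ℝ] T.ι → 𝒜'}
    {H : Finset P → ℬ} (h : ∀ Λ : Finset P, NormedSpace.exp (∑ U ∈ Λ.powerset, Cl E H U) =
      E (NormedSpace.exp (∑ X ∈ Λ.powerset, H X))) (i : T.ι) (π : ℬ →ₐ[ℝ] 𝒜) (hπ : Continuous π)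
    (E' : 𝒜 →ₗ[ℝ] 𝒜') (hE : ∀ F, E F i = E' (π F)) (U : Finset P) :
    Cl E H U i = Cl E' (fun X => π (H X)) U := by
  refine (B4.Cl_unique hinj E' _ (fun U => Cl E H U i) fun Λ _ => ?_).symm
  have h1 := congrFun (h Λ) i
  rwa [exp_apply, hE, KP.map_exp' π hπ, map_sum, Finset.sum_apply] at h1

end Loc

end Nd

end Vale.Agent.P144Z
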