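import Vale.Agent.P144A.Cl
import Vale.Agent.P144Z.R5.Main

/-!
The initial step for families of parameters.
-/

namespace Vale.Agent.P144Z.AN

open Finset Matrix Geo R5

theorem init_abs {M : ℕ} [NeZero M] {𝒜 : Type} [NormedCommRing 𝒜] [NormedAlgebra ℝ 𝒜]
    [FiniteDimensional ℝ 𝒜] (hinj : Function.Injective (NormedSpace.exp : 𝒜 → 𝒜))
    (𝓛 : LocSys (Tor M) 𝒜) (a : Tor M × Fin 2 → 𝒜) {b τ ε : ℝ} (hb : 0 ≤ b) (hτ : 0 ≤ τ)
    (ha : ∀ X, ∀ e ∈ edg X, a e ∈ 𝓛.sub X ∧ 𝓛.p X (a e) ≤ b)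
    (E₀ : ℝ → ((Tor M × Fin 2 → Bool) → 𝒜) →ₗ[ℝ] 𝒜)
    (hE₀ : ∀ w F, E₀ w F = Ex (fun e => w • a e) F) {T : Nd} {w μ : T.ι → ℝ}
    (hw : T.n abs w ≤ 1) {Hu Hs : Finset (Tor M) → (Tor M × Fin 2 → Bool) → 𝒜} (u0 : Hu ∅ = 0)
    (s0 : Hs ∅ = 0) (um : ∀ X, Hu X ∈ (funSys 𝓛 edg edg_mono).sub X)
    (sm : ∀ X, Hs X ∈ (funSys 𝓛 edg edg_mono).sub X) (hε : 0 ≤ ε) (hε' : ε ≤ 1 / 96)
    (up : Pt (τ + 2 * Real.log (1 + 2 * b) + 2)
      (fun X => T.n abs μ * (funSys 𝓛 edg edg_mono).p X (Hu X)) ε)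
    (sp : Pt (τ + 2 * Real.log (1 + 2 * b) + 2)
      (fun X => (funSys 𝓛 edg edg_mono).p X (Hs X)) (1 / 96)) :
    Pt τ (fun U => T.n (𝓛.p U) fun i =>
      Cl (E₀ (w i)) (fun X => μ i • Hu X + Hs X) U - Cl (E₀ (w i)) Hs U) (22 * ε) := by
  have := FiniteDimensional.complete ℝ 𝒜
  have hk : 0 ≤ 2 * Real.log (1 + 2 * b) :=
    mul_nonneg zero_le_two (Real.log_nonneg (by linarith))
  let π : T.ι → ((Tor M × Fin 2 → Bool) → T.ι → 𝒜) →ₐ[ℝ] ((Tor M × Fin 2 → Bool) → 𝒜) := fun i =>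
    (Pi.evalAlgHom ℝ (fun _ => 𝒜) i).compLeft _
  let E : ((Tor M × Fin 2 → Bool) → T.ι → 𝒜) →ₗ[ℝ] T.ι → 𝒜 :=
    LinearMap.pi fun i => E₀ (w i) ∘ₗ (π i).toLinearMap
  set 𝓕 := funSys (T.fam 𝓛) (edg (M := M)) edg_mono with h𝓕
  have hE : IsExp (Z1 M) 𝓕 (T.fam 𝓛) (2 * Real.log (1 + 2 * b)) E := by
    refine isExp_Ex (hT := edg_mono) (Z1 M) (fun e i => w i • a e) hb
      (fun X e he => ?_) card_edg disjoint_edg _ fun F => funext fun i => ?_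
    · exact ⟨Nd.mem_fam.2 fun i => Subalgebra.smul_mem _ (ha X e he).1 _,
        ((Nd.sn_p 𝓛 X).scal _ _).trans
          ((mul_le_of_le_one_left (𝓛.p_nonneg _ _) hw).trans (ha X e he).2)⟩
    · change E₀ _ (π i F) = _
      rw [hE₀, Ex, Ex, Finset.sum_apply]
      refine sum_congr rfl fun n _ => ?_
      rw [Pi.mul_apply, Finset.prod_apply]
      refine congrArg₂ _ rfl (prod_congr rfl fun e _ => ?_)
      split_ifs <;> rfl
  let Ku : Finset (Tor M) → (Tor M × Fin 2 → Bool) → T.ι → 𝒜 := fun X n i => μ i • Hu X n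
  let Ks : Finset (Tor M) → (Tor M × Fin 2 → Bool) → T.ι → 𝒜 := fun X n _ => Hs X n
  have b1 : Pt (τ + 2 * Real.log (1 + 2 * b) + 2) (fun X => 𝓕.p X (Ku X)) ε :=
    up.mono (fun X => funSys_le fun n => ((Nd.sn_p 𝓛 X).scal _ _).trans
      (mul_le_mul_of_nonneg_left (le_funSys (hT := edg_mono) X _ n) (Nd.nonneg _ _))) le_rfl
  have b2 : Pt (τ + 2 * Real.log (1 + 2 * b) + 2) (fun X => 𝓕.p X (Ks X)) (1 / 96) :=
    sp.mono (fun X => funSys_le fun n =>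
      ((Nd.sn_p 𝓛 X).const' _).trans (le_funSys (hT := edg_mono) X _ n)) le_rfl
  have b3 : Pt (τ + 2 * Real.log (1 + 2 * b) + 2) (fun X => 𝓕.p X (Ku X + Ks X)) (1 / 48) :=
    (b1.add b2).mono (fun X => 𝓕.p_add X _ _) (by linarith)
  have b2' := b2.mono (fun _ => le_rfl) (by norm_num : (1 / 96 : ℝ) ≤ 1 / 48)
  have ms : ∀ X, Ks X ∈ 𝓕.sub X := fun X =>
    ⟨fun n n' hn => funext fun _ => (sm X).1 n n' hn, fun n => Nd.mem_fam.2 fun _ => (sm X).2 n⟩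
  have mu : ∀ X, Ku X + Ks X ∈ 𝓕.sub X := fun X => add_mem
    ⟨fun n n' hn => funext fun i => congrArg _ ((um X).1 n n' hn),
      fun n => Nd.mem_fam.2 fun i => Subalgebra.smul_mem _ ((um X).2 n) _⟩ (ms X)
  have es : Ks ∅ = 0 := funext fun n => funext fun _ => congrFun s0 n
  have eu : Ku ∅ + Ks ∅ = 0 := by
    rw [es, add_zero]
    exact funext fun n => funext fun i => by simp [Ku, u0]
  have inj := Nd.inj_fam (T := T) hinj
  have pt : ∀ K : Finset (Tor M) → (Tor M × Fin 2 → Bool) → T.ι → 𝒜, K ∅ = 0 →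
      (∀ X, K X ∈ 𝓕.sub X) →
      Pt (τ + 2 * Real.log (1 + 2 * b) + 2) (fun X => 𝓕.p X (K X)) (1 / 48) → ∀ U i,
      Cl E K U i = Cl (E₀ (w i)) (fun X => π i (K X)) U := fun K k0 kH kl U i =>
    Nd.Cl_apply hinj (cl_main inj _ _ _ hk hτ hE k0 kH (by norm_num)
      (kl.le fun _ => 𝓕.p_nonneg _ _)).2.2.2 i (π i)
      (continuous_pi fun n => (continuous_apply i).comp (continuous_apply n)) _ (fun _ => rfl) U
  refine (pt_cl_diff inj hk hτ hE (H := fun X => Ku X + Ks X) eu es mu ms b3 b2'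
    (b1.mono (fun X => by rw [add_sub_cancel_right]) le_rfl) hε).mono (fun U => le_of_eq ?_) le_rfl
  refine congrArg (T.n _) (funext fun i => ?_)
  rw [Pi.sub_apply, pt _ eu mu b3, pt _ es ms b2']
  rfl

/-- The initial step with isolated energy sources. -/
theorem init_earlyT (τ h : ℝ) (hτ : 0 ≤ τ) (hh : 0 < h) : ∃ β₀ > 0, ∀ R : ℕ, ∃ C : ℝ, 1 ≤ C ∧
    ∀ (T : Nd) (q : T.ι → Par) (V : Finset (ℤ × ℤ) → ℝ), (∀ i, (q i).R = R) → (∀ i, (q i).V = V) →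
    (∀ i, (q i).Ok) → T.n abs (fun i => (q i).x * (q i).Z) ≤ 1 → ∀ δ,
    T.n abs (fun i => (q i).μ) * ∑ B ∈ potSets R, |V B| ≤ δ → C * δ ≤ 1 → ∀ g : Geo, g.Ok →
    (∀ k, (g.src k).on = true) → (∀ k k', k ≠ k' → 8 < tdist (g.src k).y (g.src k').y) →
    ∀ β, 0 < β → β ≤ β₀ →
      Anch 8 τ (fun U => PN T g 8 h β U fun i => g.W0 (q i) U - g.Wsrc (q i) U) (C * δ) := by
  have hk := kp0_nonneg h
  have hσ : 0 ≤ τ + kp0 h + 2 := by positivity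
  obtain ⟨Cc, -, hCc⟩ := Geo.pn_crude
  refine ⟨(1 / 96) / Real.exp ((τ + kp0 h + 2) * (1 + (1 * (2 * 1 + 1) ^ 2 : ℕ))), by positivity,
    fun R => ⟨10000 * cR (τ + kp0 h + 2) R, by linarith [one_le_cR hσ R], ?_⟩⟩
  intro T q V hR hV hq hw δ hδ hC g hg hon hsep β hβ hβ0
  obtain ⟨𝓛, h1, h2⟩ := exists_locSys hg.sign (by norm_num : 1 ≤ 8) hh hβ
  have hr := fun k => (mem_put_on (hg.src k) (hon k)).2.2
  have hu : ∀ k k' x, x ∈ g.put (g.src k).y (g.src k).Y → x ∈ g.put (g.src k').y (g.src k').Y →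
      k = k' := by
    intro k k' x hx hx'
    by_contra hne
    have a1 := hsep k k' hne
    have a2 := hr k x hx
    have a3 := hr k' x hx'
    have a4 := tdist_triangle (g.src k).y x (g.src k').y
    rw [tdist_comm] at a2
    omega
  have hS : 0 ≤ ∑ B ∈ potSets R, |V B| := sum_nonneg fun _ _ => abs_nonneg _
  have hδ0 : 0 ≤ δ := le_trans (mul_nonneg (Nd.nonneg _ _) hS) hδ
  have hc0 := zero_le_one.trans (one_le_cR hσ R)
  have b5 := init_abs exp_ev_injective 𝓛 (fun e => g.edge e.1 e.2) (b := h ^ 2 * 8)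
    (ε := cR (τ + kp0 h + 2) R * δ) (by positivity) hτ (fun X e he => by
      obtain ⟨h3, h4⟩ := mem_edg.1 he
      refine ⟨h1 ▸ Geo.edge_mem e.1 e.2 h3 h4, ?_⟩
      rw [h2]
      exact_mod_cast (hCc g hg.sign 8 h β (by norm_num) hh hβ e.1).2.2 e.2 X h3 h4)
    g.E0 E0_eq hw (μ := fun i => (q i).μ) (Hu_empty R V 1) (Hs_empty hg) (Hu_mem R V 1)
    (Hs_mem hg h1) (by positivity) (by linarith)
    (((pt_Hu (𝓛 := 𝓛) hσ R V 1).mul (Nd.nonneg abs fun i => (q i).μ)).mono (fun _ => le_rfl) (by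
      rw [abs_one, one_mul, mul_left_comm]
      exact mul_le_mul_of_nonneg_left hδ hc0))
    ((pt_Hs hg h2 hh hβ hσ hr hu).mono (fun _ => le_rfl)
      ((mul_comm _ _).trans_le ((le_div_iff₀ (Real.exp_pos _)).1 hβ0)))
  refine anch_mono (b5.anch hτ fun _ => Nd.nonneg _ _) (fun U => le_of_eq ?_) (by nlinarith)
  rw [h2]
  refine congrArg (T.n _) (funext fun i => ?_)
  rw [W0, ← Cl_Hs hg h1 h2 hh hβ (q i) (abs_w (hq i)) hon hu]
  congr 2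
  funext X
  rw [Hin_eq, hR, hV]
  congr 1
  funext n
  simp only [Hu, Pi.smul_apply, smul_smul, mul_sum, one_mul, mul_assoc, mul_div_assoc]

end Vale.Agent.P144Z.AN
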