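import Vale.Agent.P144A.Step
import Vale.Agent.P144A.Init
import Vale.Agent.P144Z.R7.Main

/-!
The canonical critical parameters and their bounds for families.
-/

namespace Vale.Agent.P144Z.AN

open Finset Matrix Filter Topology Geo R7

section Fix

variable {E : Type} [NormedAddCommGroup E] [CompleteSpace E] {w : ℕ → E → ℝ} {θ : ℝ}

theorem fix_lim (hw : Wt w) (h0 : 0 ≤ θ) {η : ℝ} (hη : 0 ≤ η) (Φ : (ℕ → E) → ℕ → E)
    (h1 : ∀ c, Bl w θ η c → Bl w θ η (Φ c))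
    (h2 : ∀ c c' ρ, Bl w θ η c → Bl w θ η c' → Bl w θ ρ (c - c') → Bl w θ (ρ / 2) (Φ c - Φ c')) :
    ∃ c, Bl w θ η c ∧ Φ c = c ∧ ∀ j, Tendsto (fun n => Φ^[n] 0 j) atTop (𝓝 (c j)) := by
  have b0 : ∀ n, Bl w θ η (Φ^[n] 0) := fun n => by
    induction n with
    | zero => exact fun j => (hw.zero j).trans_le (by positivity)
    | succ n ih => exact Function.iterate_succ_apply' Φ n 0 ▸ h1 _ ih
  have b1 : ∀ n m, Bl w θ (η / 2 ^ n) (Φ^[m + n] 0 - Φ^[n] 0) := fun n m => by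
    induction n with
    | zero => simpa using b0 m
    | succ n ih =>
      rw [← add_assoc, Function.iterate_succ_apply', Function.iterate_succ_apply', pow_succ,
        ← div_div]
      exact h2 _ _ _ (b0 _) (b0 _) ih
  have b2 : ∀ j, ∃ a, Tendsto (fun n => Φ^[n] 0 j) atTop (𝓝 a) := fun j =>
    cauchySeq_tendsto_of_complete (cauchySeq_of_le_geometric_two (C := 2 * (η * θ ^ j)) fun n => by
      rw [dist_comm, dist_eq_norm, add_comm n]
      exact ((hw.norm j _).trans (b1 n 1 j)).trans (le_of_eq (by ring)))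
  choose c hc using b2
  have b3 : ∀ n, Bl w θ (η / 2 ^ n) (c - Φ^[n] 0) := fun n j =>
    le_of_tendsto' (((hw.cont j).tendsto _).comp
      ((((tendsto_add_atTop_iff_nat n).2 (hc j))).sub_const (Φ^[n] 0 j))) fun m => b1 n m j
  have b4 : Bl w θ η c := by simpa using b3 0
  refine ⟨c, b4, funext fun j => ?_, hc⟩
  refine tendsto_nhds_unique ?_ ((tendsto_add_atTop_iff_nat 1).2 (hc j))
  rw [tendsto_iff_norm_sub_tendsto_zero]
  have b5 := (tendsto_pow_atTop_nhds_zero_of_lt_one (r := (1 / 2 : ℝ)) (by norm_num)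
    (by norm_num)).const_mul (η / 2 * θ ^ j)
  rw [mul_zero] at b5
  refine squeeze_zero (fun _ => norm_nonneg _) (fun n => ?_) b5
  rw [norm_sub_rev, Function.iterate_succ_apply']
  refine ((hw.norm j _).trans (h2 _ _ _ b4 (b0 n) (b3 n) j)).trans (le_of_eq ?_)
  rw [one_div, inv_pow]
  ring

/-- The map whose fixed points are the solutions of the recursion that tend to zero. -/
noncomputable def tl (I : (ℕ → E) → ℕ → E) (c : ℕ → E) (j : ℕ) : E := -∑' i, I c (i + j)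

theorem solve_lim (hw : Wt w) (h0 : 0 ≤ θ) (h1 : θ ≤ 1 / 2) {η : ℝ} (hη : 0 ≤ η)
    (I : (ℕ → E) → ℕ → E) (a1 : ∀ c, Bl w θ η c → Bl w θ (η / 4) (I c))
    (a2 : ∀ c c' ρ, Bl w θ η c → Bl w θ η c' → Bl w θ ρ (c - c') → Bl w θ (ρ / 4) (I c - I c')) :
    ∃ c, Bl w θ η c ∧ (∀ j, c (j + 1) = c j + I c j) ∧
      ∀ j, Tendsto (fun n => (tl I)^[n] 0 j) atTop (𝓝 (c j)) := by
  obtain ⟨c, hc, he, hl⟩ := fix_lim hw h0 hη (tl I) (fun c hc j => by
      rw [tl, hw.neg]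
      refine ((hw.tail h0 h1 (a1 c hc)).2 j).trans ?_
      gcongr
      linarith) fun c c' ρ hc hc' hρ j => by
    have := (hw.tail h0 h1 (a2 c c' ρ hc hc' hρ)).2 j
    simp only [Pi.sub_apply, tl] at this ⊢
    rw [((hw.tail h0 h1 (a1 c hc)).1 j).tsum_sub ((hw.tail h0 h1 (a1 c' hc')).1 j)] at this
    rw [neg_sub_neg, ← neg_sub, hw.neg]
    exact this.trans (le_of_eq (by ring))
  refine ⟨c, hc, fun j => ?_, hl⟩
  have e1 := congrFun he j
  have e2 := congrFun he (j + 1)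
  rw [tl] at e1 e2
  rw [((hw.tail h0 h1 (a1 c hc)).1 j).tsum_eq_zero_add] at e1
  simp only [zero_add, add_assoc, add_comm 1 j] at e1
  rw [← e2, ← e1]
  abel

end Fix

theorem wt_fam (T : Nd) {L : ℕ} (hL : 1 ≤ L) : Wt fun j => T.n (wv L j) where
  add j := ((sn_wv L j).fam T).add
  neg j := ((sn_wv L j).fam T).neg
  zero j := ((sn_wv L j).fam T).zero
  norm j a := (pi_norm_le_iff_of_nonneg (Nd.nonneg _ _)).2 fun i =>
    ((wt_wv hL).norm j _).trans (Nd.pt (sn_wv L j).nn a i)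
  cont j := continuous_iff_continuousAt.2 fun _ =>
    DD.N_tendsto ((wt_wv hL).cont j) fun i => (continuous_apply i).continuousAt
  mono i j a := Nd.mono' ((wt_wv hL).mono i j) a

variable (L : ℕ) (V : Finset (ℤ × ℤ) → ℝ) (R : ℕ) (κ : ℝ)

/-- The parameters with the initial couplings `a`. -/
noncomputable def par (a : ℝ × ℝ) : Par := ⟨V, R, κ * (-Real.log (xv a)), xv a, 1 + a.2⟩

theorem ex_dd (c : ℕ → ℝ × ℝ) : ∃ d : ℕ → ℝ × ℝ,
    ∀ j, d j = c (j + 1) - c j - inc L (par V R κ (c 0)) d j :=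
  exists_causal (fun d j => c (j + 1) - c j - inc L (par V R κ (c 0)) d j) fun d d' j h => by
    simp only [inc_congr L _ j h]

/-- The increments of the flow with the prescribed couplings `c`. -/
noncomputable def ic (c : ℕ → ℝ × ℝ) : ℕ → ℝ × ℝ :=
  inc L (par V R κ (c 0)) (ex_dd L V R κ c).choose

/-- The critical couplings. -/
noncomputable def cc (j : ℕ) : ℝ × ℝ := limUnder atTop fun n => (tl (ic L V R κ))^[n] 0 j

/-- The critical parameters. -/
noncomputable def qc : Par := par V R κ (cc L V R κ 0)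

/-- Families of critical parameters. -/
structure CritT (T : Nd) (q : T.ι → Par) (η δ : ℝ) : Prop where
  hV : ∀ i, (q i).V = V
  hR : ∀ i, (q i).R = R
  ok : ∀ i, (q i).Ok
  small : T.n abs (fun i => (q i).μ) * ∑ B ∈ potSets R, |V B| ≤ δ
  bulk : ∃ c : T.ι → ℕ → ℝ × ℝ, ∀ j, T.n (wv L j) (fun i => c i j) ≤ η * th L ^ j ∧
    ∀ (M : ℕ) [NeZero M], 16 * (R + 1) ≤ M → 16 * sc L j ≤ M →
      (∀ i x, ((geo0 M).flow L (q i) 0 j).v x =
        (c i j).1 • (geo0 M).O1 x + (c i j).2 • (geo0 M).O2 x) ∧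
      Anch (sc L j) L (fun X => PN T (geo0 M) (sc L j) (hb L j) 1 X
        fun i => ((geo0 M).flow L (q i) 0 j).K X) (η * th L ^ j)
  w : T.n abs (fun i => (q i).x * (q i).Z) ≤ 1 / 2
  x : T.n abs (fun i => (q i).x) ≤ 1
  c1 : T.n abs (fun i => (q i).Z * ((q i).x - tc)) ≤ η
  c2 : T.n abs (fun i => (q i).Z - 1) ≤ η

variable {L V R κ}

theorem par_fam {T : Nd} {a : T.ι → ℝ × ℝ} {η : ℝ}
    (h : T.n (fun c : ℝ × ℝ => 8 * |c.1| + |c.2|) a ≤ η) (hη : η ≤ 1 / 16) :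
    T.n abs (fun i => Real.log (xv (a i))) ≤ 4 ∧ T.n abs (fun i => xv (a i) * (1 + (a i).2)) ≤ 1 / 2 ∧
      T.n abs (fun i => xv (a i)) ≤ 1 ∧ T.n abs (fun i => (1 + (a i).2) * (xv (a i) - tc)) ≤ η ∧
      T.n abs (fun i => 1 + (a i).2 - 1) ≤ η := by
  have sp := fun i => xv_spec ((Nd.pt (fun c => by positivity) a i).trans h) hη
  have t := tc_mem
  have h1 : T.n abs (fun i => (a i).1) ≤ η / 8 := by
    refine (Nd.tr ⊤ (fun _ => trivial) (LinearMap.fst ℝ ℝ ℝ) (c := 1 / 8) (by norm_num)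
      (ψ := fun c : ℝ × ℝ => 8 * |c.1| + |c.2|) fun c _ => ?_).trans (by linarith)
    rw [LinearMap.fst_apply]
    linarith [abs_nonneg c.2]
  have h2 : T.n abs (fun i => (a i).2) ≤ η := by
    refine (Nd.tr ⊤ (fun _ => trivial) (LinearMap.snd ℝ ℝ ℝ) (c := 1) (by norm_num)
      (ψ := fun c : ℝ × ℝ => 8 * |c.1| + |c.2|) fun c _ => ?_).trans (by linarith)
    rw [LinearMap.snd_apply]
    linarith [abs_nonneg c.1]
  have n1 := Nd.nonneg abs fun i => (a i).1
  have h3 : T.n abs (fun i => (a i).1 * (1 + (a i).2)⁻¹) ≤ η / 4 :=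
    (Nd.abs_mul' _ _).trans (by nlinarith [Nd.inv_le (h2.trans (by linarith))])
  have c0 : ∀ v : ℝ, T.n abs (fun _ => v) ≤ |v| := Nd.sn_abs.const'
  have t0 : |tc| = tc := abs_of_pos (by linarith)
  refine ⟨?_, ?_, ?_, ?_, by simpa using h2⟩
  · have h4 : T.n abs (fun i => tc⁻¹ * ((a i).1 * (1 + (a i).2)⁻¹)) ≤ 1 / 2 := by
      rw [Nd.abs_cmul, abs_inv, t0, inv_mul_le_iff₀ (by linarith)]
      linarith
    have e : (fun i => Real.log (xv (a i))) = fun i =>
        Real.log tc + Real.log (1 + tc⁻¹ * ((a i).1 * (1 + (a i).2)⁻¹)) := funext fun i => by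
      have e1 : xv (a i) = tc * (1 + tc⁻¹ * ((a i).1 * (1 + (a i).2)⁻¹)) := by
        rw [xv, mul_add, mul_inv_cancel_left₀ (by linarith), mul_one, div_eq_mul_inv]
      have e2 := (sp i).2.1
      rw [e1] at e2 ⊢
      exact Real.log_mul (by linarith) fun h0 => by rw [h0] at e2; linarith
    have l := log_lip (by linarith : 1 / 4 ≤ tc) (by norm_num : (1 / 4 : ℝ) ≤ 1)
    rw [Real.log_one, sub_zero, abs_of_nonpos (by linarith : tc - 1 ≤ 0)] at l
    rw [e]
    linarith [Nd.sn_abs.add' (T := T) (fun _ => Real.log tc)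
      fun i => Real.log (1 + tc⁻¹ * ((a i).1 * (1 + (a i).2)⁻¹)), c0 (Real.log tc), Nd.log_le h4]
  · simp only [fun i => (sp i).2.2.2.2.2, mul_add, mul_one]
    have := Nd.abs_cmul (T := T) tc fun i => (a i).2
    have := mul_le_mul_of_nonneg_left h2 (abs_nonneg tc)
    linarith [Nd.sn_abs.add' (T := T) (fun i => tc + tc * (a i).2) fun i => (a i).1,
      Nd.sn_abs.add' (T := T) (fun _ => tc) fun i => tc * (a i).2, c0 tc,
      mul_le_mul_of_nonneg_left hη (abs_nonneg tc)]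
  · simp only [xv, div_eq_mul_inv]
    linarith [Nd.sn_abs.add' (T := T) (fun _ => tc) fun i => (a i).1 * (1 + (a i).2)⁻¹, c0 tc]
  · rw [show (fun i => (1 + (a i).2) * (xv (a i) - tc)) = fun i => (a i).1 from
      funext fun i => by linear_combination (sp i).2.2.2.2.2]
    linarith

theorem bulkT : ∃ L₀ : ℕ, ∀ L ≥ L₀, ∃ η₀ > 0, ∀ η, 0 < η → η ≤ η₀ →
    ∀ (V : Finset (ℤ × ℤ) → ℝ) (R : ℕ), P144.IsPotential V →
    (∀ B, V B ≠ 0 → (0, 0) ∈ B → B ∈ potSets R) → ∀ δ > 0, ∃ κ₀ > 0,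
      (∀ κ : ℝ, |κ| < κ₀ → Crit L (qc L V R κ) η δ) ∧ ∀ T : Nd, T.ρ ≤ κ₀ → (∀ i, |T.x i| < κ₀) →
        CritT L V R T (fun i => qc L V R (T.x i)) η δ := by
  obtain ⟨L₀, H⟩ := one_step
  obtain ⟨L₁, HT⟩ := one_stepT
  refine ⟨max L₀ L₁, fun L hL => ?_⟩
  obtain ⟨h8, C, hC, η₀, η₀0, H⟩ := H L (le_of_max_le_left hL)
  obtain ⟨C', hC', η₁, η₁0, HT⟩ := HT L (le_of_max_le_right hL)
  refine ⟨min (min η₀ η₁) (1 / 16), by positivity, fun η η0 η1 V R hV hR δ δ0 => ?_⟩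
  have O := H η η0.le (η1.trans ((min_le_left _ _).trans (min_le_left _ _)))
  have OT := HT η η0.le (η1.trans ((min_le_left _ _).trans (min_le_right _ _)))
  have η2 : η ≤ 1 / 16 := η1.trans (min_le_right _ _)
  have hL1 : 1 ≤ L := by omega
  have h3 : (0 : ℝ) < L ^ 3 := by positivity
  obtain ⟨β, β0, He⟩ := Geo.init_early L (L ^ 3) (by positivity) h3
  obtain ⟨C₀, hC₀, He⟩ := He R
  obtain ⟨β', β0', HeT⟩ := init_earlyT L (L ^ 3) (by positivity) h3
  obtain ⟨C₂, hC₂, HeT⟩ := HeT R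
  obtain ⟨C₁, hC₁, Hl⟩ := Geo.init_lip L (L ^ 3) (by positivity) h3 R
  obtain ⟨S, hS, S0⟩ : ∃ S, ∑ B ∈ potSets R, |V B| = S ∧ 0 ≤ S :=
    ⟨_, rfl, sum_nonneg fun _ _ => abs_nonneg _⟩
  obtain ⟨δ', δ1, δ2, δ3, δ8⟩ : ∃ δ' > 0, δ' ≤ δ ∧ 32 * C * C₀ * C₁ * δ' ≤ η ∧
      2 * C' * C₂ * δ' ≤ η :=
    ⟨min δ (min (η / (32 * C * C₀ * C₁)) (η / (2 * C' * C₂))), by positivity, min_le_left _ _, by
      rw [mul_comm, ← le_div_iff₀ (by positivity)]
      exact (min_le_right _ _).trans (min_le_left _ _), by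
      rw [mul_comm, ← le_div_iff₀ (by positivity)]
      exact (min_le_right _ _).trans (min_le_right _ _)⟩
  have δ4 : 32 * C * (C₀ * δ') ≤ η := by
    refine le_trans ?_ δ3
    rw [mul_right_comm _ C₁, mul_assoc _ C₀]
    exact le_mul_of_one_le_right (by positivity) hC₁
  have δ5 : 32 * C * (C₁ * δ') ≤ η := by
    refine le_trans ?_ δ3
    rw [mul_assoc _ C₁, mul_right_comm _ C₀]
    exact le_mul_of_one_le_right (by positivity) hC₀
  have δ6 : C₀ * δ' ≤ 1 := by nlinarith [mul_pos (one_pos.trans_le hC₀) δ1]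
  have δ7 : C₁ * δ' ≤ 1 := by nlinarith [mul_pos (one_pos.trans_le hC₁) δ1]
  have δ9 : C₂ * δ' ≤ 1 := by nlinarith [mul_pos (one_pos.trans_le hC₂) δ1]
  obtain ⟨κ₀, κ0, κ2⟩ : ∃ κ₀ > 0, κ₀ * 8 * S ≤ δ' := ⟨δ' / (8 * (S + 1)), by positivity, by
    rw [div_mul_eq_mul_div, div_mul_eq_mul_div, div_le_iff₀ (by positivity)]
    nlinarith⟩
  have b0 : ∀ {r c}, Bl (wv L) (th L) r c → 8 * |(c 0).1| + |(c 0).2| ≤ r := fun hc =>
    (le_wv hL1 0 _).trans (by simpa using hc 0)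
  have hd := fun κ c => (ex_dd L V R κ c).choose_spec
  have key : ∀ κ : ℝ, |κ| < κ₀ → (∀ c, Bl (wv L) (th L) η c →
      (par V R κ (c 0)).Small δ' ∧ Dat L C η (par V R κ (c 0)) (ex_dd L V R κ c).choose c) ∧
      Bl (wv L) (th L) η (cc L V R κ) ∧ (ex_dd L V R κ (cc L V R κ)).choose = 0 ∧
      ∀ j, Tendsto (fun n => (tl (ic L V R κ))^[n] 0 j) atTop (𝓝 (cc L V R κ j)) := by
    intro κ hκ
    have κ1 : |κ| * 4 * S ≤ δ' := by nlinarith [abs_nonneg κ]
    have ok : ∀ {a : ℝ × ℝ}, 8 * |a.1| + |a.2| ≤ η →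
        (par V R κ a).Ok ∧ (par V R κ a).Small δ' := fun ha => by
      obtain ⟨-, a2, a3, a4, a5, -⟩ := xv_spec ha η2
      refine ⟨⟨hV, hR, a2, a3, a4, a5⟩, le_trans ?_ κ1⟩
      simp only [par, hS, abs_mul, abs_neg]
      gcongr
      have := log_lip a2 (by norm_num : (1 / 4 : ℝ) ≤ 1)
      rw [Real.log_one, sub_zero, abs_of_nonpos (by linarith : xv _ - 1 ≤ 0)] at this
      linarith
    have D : ∀ c, Bl (wv L) (th L) η c →
        Dat L C η (par V R κ (c 0)) (ex_dd L V R κ c).choose c := fun c hc => by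
      refine ⟨(ok (b0 hc)).1, ?_, by simp [par], fun j => by rw [hd κ c j]; abel, hc,
        fun M _ => ?_⟩
      · simp only [par]
        linear_combination (xv_spec (b0 hc) η2).2.2.2.2.2
      · have g0 := pl0 M
        have := g0.emp
        refine anch_mono (anch_mul (He _ rfl (ok (b0 hc)).1 δ' (ok (b0 hc)).2 δ6 _ g0.ok
          (fun k => this.elim k) (fun k => this.elim k) β β0 le_rfl).2 zero_le_two) (fun X => ?_) ?_
        · have m := Geo.W0_mem g0.ok (par V R κ (c 0)) X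
          have e := Geo.pn_noB_eq g0.sign (by norm_num : 1 ≤ 8) h3 one_pos m β0
          rw [g0.noB m] at e
          simp only [Geo.Wsrc, univ_eq_empty (α := (geo0 M).K), filter_empty, sum_empty, sub_zero]
          rw [init_K g0, e]
          exact pn_sub_noF g0.sign (by norm_num) h3 one_pos m
        · rw [le_div_iff₀ (by positivity)]
          linarith
    obtain ⟨c, hc, he, hl⟩ := solve_lim (wt_wv hL1) (th_pos hL1).le (th_le (by omega)) η0.le
      (ic L V R κ) (fun c hc => inc_one h8 hC η0.le O (D c hc))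
      fun c c' ρ hc hc' hρ => by
        have ρ0 : 0 ≤ ρ := le_trans (by positivity) (b0 hρ)
        refine inc_two h8 hC η0.le O (D c hc) (D c' hc') rfl ρ0 hρ fun M _ => ?_
        have g0 := pl0 M
        obtain ⟨l1, l2⟩ := xv_lip (b0 hc) (b0 hc') η2 (b0 hρ)
        refine anch_mono (anch_mul (Hl (par V R κ (c 0)) (par V R κ (c' 0)) rfl rfl rfl
          (ok (b0 hc)).1 (ok (b0 hc')).1 δ' (ok (b0 hc)).2 (ok (b0 hc')).2 δ7 M) zero_le_two)
          (fun X => ?_) ?_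
        · rw [init_K g0, init_K g0, sub_sub_sub_comm, ← map_sub]
          exact pn_sub_noF g0.sign (by norm_num) h3 one_pos
            (sub_mem (Geo.W0_mem g0.ok _ X) (Geo.W0_mem g0.ok _ X))
        · have l3 := log_lip (xv_spec (b0 hc') η2).2.1 (xv_spec (b0 hc) η2).2.1
          rw [abs_sub_comm (xv _)] at l3
          simp only [par, hS]
          rw [← mul_sub, abs_mul, neg_sub_neg, le_div_iff₀ (by positivity)]
          calc _ ≤ 2 * (C₁ * (|κ| * (4 * ρ) * S + δ' * ρ)) * C := by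
                gcongr
                linarith
            _ = 2 * C * C₁ * (|κ| * 4 * S + δ') * ρ := by ring
            _ ≤ 2 * C * C₁ * (δ' + δ') * ρ := by gcongr
            _ ≤ _ := mul_le_of_le_one_left ρ0 (by linarith)
    obtain rfl : cc L V R κ = c := funext fun j => (hl j).limUnder_eq
    refine ⟨fun c hc => ⟨(ok (b0 hc)).2, D c hc⟩, hc, funext fun j => ?_, hl⟩
    rw [hd κ _ j, he j]
    simp [ic]
  have D0 : ∀ κ : ℝ, |κ| < κ₀ → Dat L C η (qc L V R κ) 0 (cc L V R κ) := fun κ hκ => by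
    obtain ⟨k1, k2, k3, -⟩ := key κ hκ
    exact k3 ▸ (k1 _ k2).2
  refine ⟨κ₀, κ0, fun κ hκ => ?_, fun T hρ hx => ?_⟩
  · obtain ⟨k1, hc, -⟩ := key κ hκ
    have D' := D0 κ hκ
    refine ⟨D'.ok, (k1 _ hc).1.trans δ2, ⟨fun j => (cc L V R κ j).1, fun j => (cc L V R κ j).2,
      fun j => ⟨hc j, fun M _ h1 h2 => ?_⟩⟩, (xv_spec (b0 hc) η2).1, ?_⟩
    · have G := good_flow h8 hC η0.le O D' M h1 j h2
      exact ⟨G.v, anch_mono G.K (fun _ => le_rfl) (mul_le_mul_of_nonneg_right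
        (div_le_self η0.le hC) (pow_pos (th_pos hL1) j).le)⟩
    · have := b0 hc
      simp only [qc, par]
      rw [add_sub_cancel_left]
      linarith [abs_nonneg (cc L V R κ 0).1]
  have W := wt_fam T hL1
  have pw : ∀ {c : T.ι → ℕ → ℝ × ℝ}, (∀ j, T.n (wv L j) (fun i => c i j) ≤ η * th L ^ j) →
      ∀ i, Bl (wv L) (th L) η (c i) := fun {c} hc i j =>
    (Nd.pt (sn_wv L j).nn (fun i => c i j) i).trans (hc j)
  have K0 : ∀ c : T.ι → ℕ → ℝ × ℝ, (∀ j, T.n (wv L j) (fun i => c i j) ≤ η * th L ^ j) →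
      T.n (fun c : ℝ × ℝ => 8 * |c.1| + |c.2|) (fun i => c i 0) ≤ η ∧
      T.n abs (fun i => (par V R (T.x i) (c i 0)).μ) * S ≤ δ' ∧ ∀ (M : ℕ) [NeZero M],
      Anch 8 L (fun X => PN T (geo0 M) 8 (L ^ 3) 1 X
        fun i => ((geo0 M).init (par V R (T.x i) (c i 0))).K X) (η / C') := fun c hc => by
    have a0 : T.n (fun c : ℝ × ℝ => 8 * |c.1| + |c.2|) (fun i => c i 0) ≤ η :=
      (Nd.mono' (le_wv hL1 0) _).trans (by simpa using hc 0)
    obtain ⟨p1, p2, -⟩ := par_fam a0 η2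
    have a1 : T.n abs (fun i => (par V R (T.x i) (c i 0)).μ) * S ≤ δ' := by
      refine le_trans (mul_le_mul_of_nonneg_right ((Nd.abs_mul' _ _).trans ?_) S0) κ2
      rw [Nd.sn_abs.neg']
      have := Nd.n_x κ0.le fun i => (hx i).le
      nlinarith [Nd.nonneg (T := T) abs T.x, Nd.nonneg abs fun i => Real.log (xv (c i 0))]
    refine ⟨a0, a1, fun M _ => ?_⟩
    have g0 := pl0 M
    have := g0.emp
    refine anch_mono (anch_mul (HeT T _ V (fun _ => rfl) (fun _ => rfl)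
      (fun i => ((key _ (hx i)).1 _ (pw hc i)).2.ok) (p2.trans (by norm_num)) δ' (hS ▸ a1) δ9 _ g0.ok
      (fun k => this.elim k) (fun k => this.elim k) β' β0' le_rfl) zero_le_two) (fun X => ?_) ?_
    · have m := fun i => Geo.W0_mem g0.ok (par V R (T.x i) (c i 0)) X
      simp only [Geo.Wsrc, univ_eq_empty (α := (geo0 M).K), filter_empty, sum_empty, sub_zero,
        init_K g0]
      refine (PN_noF ⟨g0.sign, by norm_num, h3, one_pos⟩ m).trans
        (mul_le_mul_of_nonneg_left (Nd.mono ((geo0 M).sub X).toSubmodule m fun F hF => ?_)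
          zero_le_two)
      have e := Geo.pn_noB_eq g0.sign (by norm_num : 1 ≤ 8) h3 one_pos hF β0'
      rw [g0.noB hF] at e
      exact e.ge
    · rw [le_div_iff₀ (by positivity)]
      linarith
  have it : ∀ n j, T.n (wv L j) (fun i => (tl (ic L V R (T.x i)))^[n] 0 j) ≤ η * th L ^ j := by
    intro n
    induction n with
    | zero => exact fun j => (W.zero j).trans_le (by have := th_pos hL1; positivity)
    | succ n ih =>
      intro j
      obtain ⟨s1, s2⟩ := W.tail (th_pos hL1).le (th_le (by omega)) (r := η / 4)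
        (u := fun j i => ic L V R (T.x i) ((tl (ic L V R (T.x i)))^[n] 0) j)
        (incT h8 hC η0.le O OT (fun i => ((key _ (hx i)).1 _ (pw ih i)).2) (fun _ => rfl) ih
          (K0 _ ih).2.2)
      simp only [Function.iterate_succ_apply', tl]
      rw [(sn_wv L j).neg']
      refine le_trans (le_of_eq (congrArg _ (funext fun i => ?_))) ((s2 j).trans ?_)
      · exact (tsum_apply (s1 j)).symm
      · have := th_pos hL1
        gcongr
        linarith
  have hc : ∀ j, T.n (wv L j) (fun i => cc L V R (T.x i) j) ≤ η * th L ^ j := fun j =>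
    Nd.le_of_lim ((wt_wv hL1).cont j) (fun i => (key _ (hx i)).2.2.2 j)
      (Eventually.of_forall fun n => it n j)
  obtain ⟨k1, k2, k3⟩ := K0 _ hc
  obtain ⟨-, p2, p3, p4, p5⟩ := par_fam k1 η2
  refine ⟨fun _ => rfl, fun _ => rfl, fun i => (D0 _ (hx i)).ok, (hS ▸ k2).trans δ2,
    ⟨_, fun j => ⟨hc j, fun M _ h1 h2 => ⟨fun i =>
      (good_flow h8 hC η0.le O (D0 _ (hx i)) M h1 j h2).v, ?_⟩⟩⟩, p2, p3, p4, p5⟩
  exact anch_mono (flowT h8 hC η0.le O OT (fun i => D0 _ (hx i)) (fun _ => rfl) hc M (k3 M) h1 j h2)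
    (fun _ => le_rfl) (mul_le_mul_of_nonneg_right (div_le_self η0.le hC')
      (pow_pos (th_pos hL1) j).le)

end Vale.Agent.P144Z.AN
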