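import Vale.Agent.P144A.An
import Vale.Agent.P144U.Rg.All0

/-!
Universality for the classes of an engine, with the canonical constants.
-/

namespace Vale.Agent.P144Z.AN

open Finset Filter Topology

/-- `GenJU` with the canonical constants. -/
def GenJA : Prop :=
  ∃ ε₁ > (0 : ℝ), ∀ c' : ℝ, 1 ≤ c' → ∃ η₁ > (0 : ℝ), ∃ L₀ : ℕ, ∀ L ≥ L₀, ∀ G, EngU L G →
    (∀ (N : ℕ) (Q : Cls) (c : ℝ), 1 ≤ c → c ^ 2 ≤ ε₁ * L → G N Q → Q.Sch L c →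
      UnivU Q par0 1 1 L N ∧ ∃ Zσ Zε : ℝ, UnivJU Q par0 Zσ Zε L N c' η₁) ∧
    ∀ ε > 0, ∃ η₀ > 0, ∀ R : ℕ, ∃ δ₀ > 0, ∀ q : Par, q.R = R → Crit L q η₀ δ₀ →
      Ch L q ∧ |Real.exp (sg L q) - 1| < ε ∧ |ze L q - 1| < ε ∧
        MainOK q (Real.exp (sg L q)) (ze L q) ∧
        ∀ (N : ℕ) (Q : Cls) (c : ℝ), 1 ≤ c → c ^ 2 ≤ ε₁ * L → G N Q → Q.Sch L c →
          UnivU Q q (Real.exp (sg L q)) (ze L q) L N ∧
            UnivJU Q q (Real.exp (sg L q)) (ze L q) L N c' η₁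

/-- `GenT` with the canonical constants. -/
def GenA : Prop :=
  ∃ ε₀ > (0 : ℝ), ∀ ε₁ > (0 : ℝ), ε₁ ≤ ε₀ → ∀ c' : ℝ, 1 ≤ c' → ∃ η₁ > (0 : ℝ), ∃ L₀ : ℕ,
    ∀ L ≥ L₀, ∃ kf : ℕ → ℕ → ℕ,
    (∀ m N k, kf m N ≤ k → UnivU (QU L ε₁ k N) par0 1 1 L m ∧
      ∃ Zσ Zε : ℝ, UnivJK (QU L ε₁ k N) par0 Zσ Zε L c' η₁ m) ∧
    ∀ ε > 0, ∃ η₀ > 0, ∀ R : ℕ, ∃ δ₀ > 0, ∀ q : Par, q.R = R → Crit L q η₀ δ₀ →
      Ch L q ∧ |Real.exp (sg L q) - 1| < ε ∧ |ze L q - 1| < ε ∧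
        MainOK q (Real.exp (sg L q)) (ze L q) ∧
        ∀ m N k, kf m N ≤ k → UnivU (QU L ε₁ k N) q (Real.exp (sg L q)) (ze L q) L m ∧
          UnivJK (QU L ε₁ k N) q (Real.exp (sg L q)) (ze L q) L c' η₁ m

theorem lim_two (a : ℝ) : Tendsto (fun j : ℕ => a / (2 : ℝ) ^ j) atTop (𝓝 0) :=
  (tendsto_pow_atTop_atTop_of_one_lt one_lt_two).const_div_atTop a

open Mn in
theorem ch_of {L : ℕ} {q : Par} {Z a b s : ℝ} (hL : 64 ≤ L) (hq : q.Ok)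
    (hz : ∀ j, |FM.zr L q j - Z * (-2 * tc)| ≤ 1 / 2 ^ j) (hP : MN.Pl L q Z a b)
    (hs : MN.Sg L q Z a b s) : Ch L q ∧ sg L q = s ∧ ze L q = Z := by
  have h1 : Tendsto (FM.zr L q) atTop (𝓝 (Z * (-2 * tc))) :=
    tendsto_iff_norm_sub_tendsto_zero.2 (squeeze_zero (fun _ => norm_nonneg _) hz (lim_two 1))
  have h2 : Tendsto (sr L q) itl (𝓝 s) := by
    obtain ⟨w, hw, J₀, h⟩ := hP 2 3 (by norm_num)
    refine tendsto_iff_norm_sub_tendsto_zero.2 (squeeze_zero' (Eventually.of_forall fun _ =>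
      norm_nonneg _) (g := fun p => 9600 * (a / 2 ^ p.1)) (eventually_curry_iff.2 ?_) ?_)
    · filter_upwards [eventually_ge_atTop J₀] with J hJ
      obtain ⟨M₀, h⟩ := h J hJ _ le_rfl (Nat.mul_le_mul_left _ (sc_mono (by omega) J.le_succ))
      filter_upwards [eventually_ge_atTop
        (M₀ + 16 * (q.R + 1) + 8 * (2 * (8 * sc L J) + 1) + 8 * (8 * sc L J))] with M hM
      have h8 := eight_le_sc (L := L) (by omega) J
      have hp := pos_gs (8 * sc L J) (by omega)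
      obtain ⟨N, D⟩ := exists_dat hL hq hw le_rfl h (n := 2) (m := 0) (by norm_num) le_rfl ![] hp
        (M + 1) (by omega)
      exact hs _ _ _ _ _ _ _ D _
        (((geoM_spec (by norm_num) ![] J hp (by omega)).2.2.2.2 _).2 ⟨0, rfl⟩)
    · have := (((lim_two a).const_mul 9600).comp tendsto_fst).mono_left
        (curry_le_prod (m := (atTop : Filter ℕ)))
      rwa [mul_zero] at this
  have e1 : sg L q = s := h2.limUnder_eq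
  have e2 : ze L q = Z := by
    rw [ze, h1.limUnder_eq, mul_div_cancel_right₀ _ (by have := FM.tc_lo; linarith)]
  exact ⟨⟨e2 ▸ h1, e1 ▸ h2⟩, e1, e2⟩

open GU Mn in
theorem genJA_of (hF : FlowSU) (hM : MainSU) : GenJA := by
  obtain ⟨ε₁, hε₁, hI⟩ := hF
  obtain ⟨L₁, hL₁, hP⟩ := flowU
  refine ⟨ε₁, hε₁, fun c' hc' => ?_⟩
  obtain ⟨η₁, hη₁, L₂, hI⟩ := hI c' hc'
  refine ⟨η₁, hη₁, max (max L₁ L₂) 64, fun L hL G hG => ?_⟩
  simp only [ge_iff_le, max_le_iff] at hL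
  obtain ⟨⟨l1, l2⟩, l3⟩ := hL
  obtain ⟨C, hC, ηa, hηa, hP⟩ := hP L l1
  obtain ⟨C', hC', σ, hσ, ηb, hηb, hI⟩ := hI L l2 G hG
  have key : ∀ ε > 0, ∃ η > 0, ∀ R : ℕ, ∃ δ > 0, ∀ q : Par, q.R = R → Crit L q η δ →
      Ch L q ∧ |Real.exp (sg L q) - 1| < ε ∧ |ze L q - 1| < ε ∧
        MainOK q (Real.exp (sg L q)) (ze L q) ∧ ∀ (N : ℕ) (Q : Cls) (c : ℝ),
        1 ≤ c → c ^ 2 ≤ ε₁ * L → G N Q → Q.Sch L c →
          MainU Q q (Real.exp (sg L q)) (ze L q) L N σ η ∧ EnU Q q L N σ η ∧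
            UnivJU Q q (Real.exp (sg L q)) (ze L q) L N c' η₁ := fun ε hε => by
    set E := C + C' with hE
    have hE0 : 0 < E := by linarith
    set η := min (min ηa ηb) (min ε 1 / (20000 * E)) with hη
    have hm0 : 0 < min ε 1 := lt_min hε one_pos
    have hη0 : 0 < η := by positivity
    have hCη : E * η ≤ min ε 1 / 20000 := by
      calc E * η ≤ E * (min ε 1 / (20000 * E)) :=
            mul_le_mul_of_nonneg_left (min_le_right _ _) hE0.le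
        _ = _ := by field_simp
    have hm1 := min_le_left ε 1
    have hm2 := min_le_right ε 1
    obtain ⟨m1, m2⟩ := le_min_iff.1 (min_le_left _ _ : η ≤ min ηa ηb)
    refine ⟨η, hη0, fun R => ?_⟩
    obtain ⟨δa, hδa, hP⟩ := hP η hη0 m1 R
    obtain ⟨δb, hδb, hI⟩ := hI η hη0 m2 R
    refine ⟨min δa δb, by positivity, fun q hR hq => ?_⟩
    obtain ⟨Z, z1, z2, z3, hP⟩ := hP q hR (hq.mono le_rfl (min_le_left _ _))
    replace hI := hI q hR (hq.mono le_rfl (min_le_right _ _)) Z z2 z3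
    have e1 : C * η ≤ E * η := mul_le_mul_of_nonneg_right (by linarith) hη0.le
    have e2 : C' * η ≤ E * η := mul_le_mul_of_nonneg_right (by linarith) hη0.le
    have hP' : MN.Pl L q Z (E * η) C := fun N₀ Λ hΛ => by
      obtain ⟨w, hw, J₀, hP⟩ := hP N₀ Λ hΛ
      refine ⟨w, hw, J₀, fun J hJ r h1 h2 => ?_⟩
      obtain ⟨M₀, hP⟩ := hP J hJ r h1 h2
      exact ⟨M₀, fun g a1 a2 a3 N a4 a5 => (hP g a1 a2 a3 N a4 a5).mono e1 le_rfl⟩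
    obtain ⟨w, J₀, h⟩ := MN.exists_ref l3 hq.ok hP'
    obtain ⟨s, hs, hs'⟩ := exists_sigma l3 (w := w) (J₀ := J₀) fun i => h (J₀ + i) (by omega) _
      le_rfl (Nat.mul_le_mul_left _ (sc_mono (by omega) (by omega)))
    have hZ : 1 / 2 ≤ Z := by
      have := abs_le.1 z1
      linarith
    obtain ⟨ch, e3, e4⟩ := ch_of l3 hq.ok z3 hP' hs'
    rw [e3, e4]
    refine ⟨ch, ?_, by linarith, MN.main_plane l3 hq.ok hP' hs', fun N Q c hc hcL hQ hS => ?_⟩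
    · have := Real.abs_exp_sub_one_le (x := s) (by linarith)
      linarith
    obtain ⟨k1, k2⟩ := hI N Q hQ
    obtain ⟨k3, k4⟩ := hM L N q Z (E * η) C s σ η Q l3 hq.ok (by positivity)
    have k5 := k3 (flowQ_mono k1 e2)
    exact ⟨(k4 hZ hP' hs').1 (flowQ_mono k1 e2), k5, σ, η / C', hσ, by positivity,
      ((hM L N q Z (E * η) C s σ (η / C') Q l3 hq.ok (by positivity)).2 hZ hP' hs').2 c c' η₁ hS
        (flowQV_mono (k2 c hc hcL) e2), en_anti k5 le_rfl (div_le_self hη0.le hC')⟩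
  refine ⟨fun N Q c h1 h2 hQ hS => ?_, fun ε hε => ?_⟩
  · obtain ⟨η, hη, h⟩ := key 1 one_pos
    obtain ⟨δ, hδ, h⟩ := h 0
    obtain ⟨η', hη', -, hU⟩ := univ_of hσ hη
    obtain ⟨δ', hδ', hU⟩ := hU 0
    obtain ⟨-, -, -, -, h⟩ := h _ rfl (crit_par0 L _ _ hη.le hδ.le)
    obtain ⟨k1, k2, k3⟩ := h N Q c h1 h2 hQ hS
    exact ⟨hU Q _ 1 1 L N rfl (crit_par0 L _ _ hη'.le hδ'.le) (main_par k1 hη.le) k2, _, _, k3⟩
  · obtain ⟨η, hη, h⟩ := key ε hε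
    obtain ⟨η', hη', e, hU⟩ := univ_of hσ hη
    refine ⟨η', hη', fun R => ?_⟩
    obtain ⟨δ, hδ, h⟩ := h R
    obtain ⟨δ', hδ', hU⟩ := hU R
    refine ⟨min δ δ', by positivity, fun q hR hq => ?_⟩
    obtain ⟨z0, z1, z2, z3, h⟩ := h q hR (hq.mono e (min_le_left _ _))
    refine ⟨z0, z1, z2, z3, fun N Q c h1 h2 hQ hS => ?_⟩
    obtain ⟨k1, k2, k3⟩ := h N Q c h1 h2 hQ hS
    exact ⟨hU Q q _ _ L N hR (hq.mono le_rfl (min_le_right _ _)) k1 k2, k3⟩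

open GU in
theorem genA_of (hE : EngT) (hG : GenJA) : GenA := by
  obtain ⟨ε₀, hε₀, hE⟩ := hE
  obtain ⟨ε₁, hε₁, hG⟩ := hG
  refine ⟨min ε₀ ε₁, by positivity, fun ε hε hε' c' hc' => ?_⟩
  obtain ⟨e1, e2⟩ := le_min_iff.1 hε'
  obtain ⟨L₁, hE⟩ := hE ε hε e1
  obtain ⟨η₁, hη₁, L₂, hG⟩ := hG c' hc'
  refine ⟨η₁, hη₁, max (max L₁ L₂) ⌈1 / ε⌉₊, fun L hL => ?_⟩
  simp only [ge_iff_le, max_le_iff] at hL
  obtain ⟨⟨l1, l2⟩, l3⟩ := hL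
  obtain ⟨kf, hE⟩ := hE L l1
  obtain ⟨h1, h2⟩ := hG L l2 _ hE
  have c0 : 1 ≤ ε * L := by
    rw [mul_comm]
    exact (div_le_iff₀ hε).1 (Nat.ceil_le.1 l3)
  have c1 : 1 ≤ √(ε * L) := Real.one_le_sqrt.2 c0
  have c2 : √(ε * L) ^ 2 ≤ ε₁ * L := by
    rw [Real.sq_sqrt (by linarith)]
    exact mul_le_mul_of_nonneg_right e2 (Nat.cast_nonneg L)
  refine ⟨fun m N => kf (m + 1) N, fun m N k hk => ?_, fun ε' hε' => ?_⟩
  · obtain ⟨k1, Zσ, Zε, k2⟩ := h1 (m + 1) _ _ c1 c2 ⟨N, k, hk, rfl⟩ (sch_QU L ε k N)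
    exact ⟨univU_anti k1 m.le_succ, Zσ, Zε, univJK k2⟩
  · obtain ⟨η, hη, h⟩ := h2 ε' hε'
    refine ⟨η, hη, fun R => ?_⟩
    obtain ⟨δ, hδ, h⟩ := h R
    refine ⟨δ, hδ, fun q hR hq => ?_⟩
    obtain ⟨z0, z1, z2, z3, h⟩ := h q hR hq
    refine ⟨z0, z1, z2, z3, fun m N k hk => ?_⟩
    obtain ⟨k1, k2⟩ := h (m + 1) _ _ c1 c2 ⟨N, k, hk, rfl⟩ (sch_QU L ε k N)
    exact ⟨univU_anti k1 m.le_succ, univJK k2⟩

theorem genA_of_wt (hW : WtS) : GenA := genA_of (engT_of initU hW) (genJA_of flowSU mainSU)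

end Vale.Agent.P144Z.AN
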