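import Vale.Agent.P144A.Early
import Vale.Agent.P144A.Fix
import Vale.Agent.P144Z.FM.Zinf

/-!
The induction over the scales below the distance of the defects, for families.
-/

namespace Vale.Agent.P144Z.AN

open Finset Matrix Geo FM

theorem init_dfT (τ h : ℝ) (hτ : 0 ≤ τ) (hh : 0 < h) : ∃ C : ℝ, 1 ≤ C ∧ ∀ (T : Nd) (g : Geo),
    g.Ok → ∀ (q : T.ι → Par) (η : ℝ), T.n abs (fun i => (q i).Z * ((q i).x - tc)) ≤ η →
    T.n abs (fun i => (q i).Z - 1) ≤ η → ∀ β ε : ℝ, 0 < β → (∀ k, (g.src k).on = true) →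
    Anch 8 τ (fun U => PN T g 8 h β U fun i => g.W0 (q i) U - g.Wsrc (q i) U) ε →
      Anch 8 τ (dfT T g 8 h β (fun i => g.init (q i)) fun i => g.srcSt (g.init (q i)).z)
        (4 * ε + C * η) := by
  obtain ⟨C, hC1, hC⟩ := pn_crude
  refine ⟨1 + 2 * (9 * (8 : ℕ) ^ 2 * Real.exp τ * (2 * (C * h ^ 2 * 8))),
    le_add_of_nonneg_right (by positivity), fun T g hg q η hx hZ β ε hβ hon hA => ?_⟩
  have a : R8.Ad g 8 h β := ⟨hg.sign, by norm_num, hh, hβ⟩
  have hη : 0 ≤ η := (Nd.nonneg _ _).trans hx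
  have hcar : Anch 8 τ (fun X => PN T g 8 h β X
      fun i => ∑ x ∈ univ.filter (fun x => star x = X), (g.init (q i)).v x)
      (9 * (8 : ℕ) ^ 2 * Real.exp τ * (2 * (C * h ^ 2 * 8) * η)) := by
    refine R7.anch_star le_rfl hτ (by positivity) fun X =>
      (PN_sum a _ _).trans (sum_le_sum fun x hx' => ?_)
    obtain ⟨a1, a2, -⟩ := hC g hg.sign 8 h β a.l hh hβ x
    rw [← (mem_filter.1 hx').2]
    have a4 := (PN_scal a _ _).trans (mul_le_mul hx a1 (R8.pn_nonneg _ _) hη)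
    have a5 := (PN_scal a _ _).trans (mul_le_mul hZ a2 (R8.pn_nonneg _ _) hη)
    push_cast at a4 a5
    exact (PN_add a _ _).trans (by linarith)
  refine anch_mono (R8.anch_add (R7.anch_mul hA (by norm_num : (0 : ℝ) ≤ 4))
    (R7.anch_mul hcar zero_le_two)) (fun X => add_le_add ?_ ?_) (by linarith)
  · have hD : ∀ i, g.W0 (q i) X - g.Wsrc (q i) X ∈ g.sub X := fun i =>
      sub_mem (W0_mem hg _ X) (sum_mem fun k hk => by
        obtain ⟨a1, a2, -⟩ := R5.mem_put_on (hg.src k) (hon k)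
        rw [(mem_filter.1 hk).2] at a1 a2
        exact add_mem (bv_mem a1)
          (Subalgebra.smul_mem _ (mul_mem (bv_mem a1) (edge_mem _ _ a1 a2)) _))
    have e : ∀ i, (g.init (q i)).K X - (g.srcSt (g.init (q i)).z).K X =
        (g.W0 (q i) X - g.Wsrc (q i) X) - g.noF (g.W0 (q i) X - g.Wsrc (q i) X) := fun i => by
      simp only [init, srcSt, Wsrc, map_sub, map_sum, map_add, map_smul, noF_bv, noF_bE, smul_zero,
        sum_add_distrib, sum_const_zero, Pi.zero_apply]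
      ring
    simp only [e]
    linarith [PN_dp (T := T) a (fun i => sub_mem (hD i) (noF_mem (hD i))) 8 X, PN_noF a hD]
  · simp only [car_sub]
    exact PN_dp a (fun i => sum_mem fun x hx => (mem_filter.1 hx).2 ▸
      (wf_flow hg 0 (q i) 0 0).vmem x) 8 X

open R6 in
theorem noB_leT {T : Nd} {g : Geo} {L R : ℕ} {V : Finset (ℤ × ℤ) → ℝ} {q : T.ι → Par} (hL : 8 ≤ L)
    (hg : g.Ok) (hV : P144.IsPotential V) (qV : ∀ i, (q i).V = V) (qR : ∀ i, (q i).R = R)
    (hR : 16 * (R + 1) ≤ g.M) (j : ℕ) {h : ℝ} (hh : 0 < h) {X : Finset g.P} {x : g.P}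
    (hx : x ∈ X) (hX : g.nd (sc L j) X) :
    PN T g (sc L j) h 1 X (fun i => g.noB ((g.flow L (q i) 0 j).K X)) ≤
        PN T (geo0 g.M) (sc L j) h 1 X (fun i => ((geo0 g.M).flow L (q i) 0 j).K X) ∧
      PN T g (sc L j) h 1 X (fun i => g.noB ((g.flow L (q i) 0 j).car X)) ≤
        PN T (geo0 g.M) (sc L j) h 1 X fun i => ((geo0 g.M).flow L (q i) 0 j).car X := by
  have h8 := FM.eight_le_sc (by omega : 1 ≤ L) j
  have hT : 1 ≤ 2 * stein X + 3 * sc L j := by omega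
  obtain ⟨m, hm, hA⟩ := exists_tr (g' := geo0 g.M) (q := ⟨V, R, 0, 0, 0⟩) (c := x) (c' := x) hg
    (ok_geo0 _) hV (show 2 * (R + 1) ≤ g.M by omega) (show 2 * (R + 1) ≤ g.M by omega)
    ⟨hX.2, hX.2, fun f hf => (FM.flux_one _).trans (hX.1 x hx f hf).symm⟩ hT (srcs_none _ _ _ _)
  let m' := FMap.ball (g := geo0 g.M) (g' := g) syId x x hX.2 hX.2 hT m.sε
    (gauge_stp (g := geo0 g.M) (g' := g) hX.2 hX.2 hT fun (y : g.P) i hy hy' => by
      have h1 : (1 : ℝ) = m.ε y * m.ε (y + uv g.M i) * g.A (y, i) := hA y i hy hy'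
      have h2 := m.εε y
      have h3 := m.εε (y + uv g.M i)
      change g.A (shf x x y, i) = m.ε y * m.ε (y + uv g.M i) * 1
      rw [shf_self]
      grind) (fun k => isEmptyElim k) (fun k => isEmptyElim k) fun k => isEmptyElim k
  have e1 : X.image m.φ = X := hm.hφ ▸ image_shf_self x X
  have e2 : Finset.image m'.φ X = X := image_shf_self x X
  have e3 : ∀ F, m'.Φ (m.Φ F) = g.noB F := FMap.Φ_Φ hm.hy rfl (fun k => by rw [hm.hκ])
    (fun y => by rw [hm.hφ]; exact (shf_self x _).trans (shf_self x y))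
    fun y => by rw [hm.hφ]; exact congrArg m.ε (shf_self x y)
  have h0 : tdist x x = 0 := tdist_self x
  have h1 := fun i => Id.flow (q := q i) (L := L) { hm with ini := { hm.ini with
    pot := qV i ▸ hV, smR := fun v hv => hm.ini.smR v (qR i ▸ hv) } } (by omega) 0 j (by simp)
  have h2 : m.In (2 * sc L j) X := hm.In hx (by omega)
  have h3 : m'.In (2 * sc L j + 4) X := fun u hu => by
    have := tdist_le_stein hu hx
    change tdist (M := g.M) u x + _ ≤ _
    omega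
  have h4 : ∀ F : T.ι → g.E, (∀ i, F i ∈ g.el X) → PN T g (sc L j) h 1 X (fun i => g.noB (F i)) ≤
      PN T (geo0 g.M) (sc L j) h 1 X fun i => m.Φ (F i) := fun F hF => by
    simpa [PN] using tr2 (T := T) (g.el X).toSubmodule hF g.noB.isLinear m.Φ.isLinear zero_le_one
      zero_le_one (φ := g.pn (sc L j) h 1 X) (ψ := (geo0 g.M).pn (sc L j) h 1 X) fun F hF => by
        have := FMap.pn_le (m := m') rfl (by omega) hh one_pos one_pos h3 (e1 ▸ m.Φ_el hF)
        rw [e2, e3] at this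
        exact (mul_one _).trans_le (this.trans_eq (one_mul _).symm)
  exact ⟨(h4 _ fun i => (h1 i).loc.K X).trans_eq (congrArg _ (funext fun i =>
      ((h1 i).K X h2).symm.trans (congrArg _ e1))),
    (h4 _ fun i => (h1 i).loc.car X).trans_eq (congrArg _ (funext fun i =>
      ((h1 i).car (by omega) h2).symm.trans (congrArg _ e1)))⟩

/-- The bulk part of every flow is small. -/
theorem ag_bfT : ∃ C : ℝ, 1 ≤ C ∧ ∀ L : ℕ, 8 ≤ L → ∀ (V : Finset (ℤ × ℤ) → ℝ) (R : ℕ) (T : Nd)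
    (q : T.ι → Par) (η δ : ℝ), P144.IsPotential V → CritT L V R T q η δ → ∀ g : Geo, g.Ok →
    16 * (R + 1) ≤ g.M → ∀ j, 16 * sc L j ≤ g.M → ∀ h, 0 < h → h ≤ hb L j →
      Anch (sc L j) L (bfT T g (sc L j) h fun i => g.flow L (q i) 0 j)
        (C * Real.exp L * η * th L ^ j) := by
  obtain ⟨C, hC, H⟩ := carT
  refine ⟨C + 1, by linarith, fun L hL V R T q η δ hV hq g hg hR j hM h hh hh' z => ?_⟩
  obtain ⟨c, hB⟩ := hq.bulk
  obtain ⟨b1, hB⟩ := hB j
  obtain ⟨b2, b3⟩ := hB g.M hR hM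
  have h8 := eight_le_sc (by omega : 1 ≤ L) j
  have h1 := anch_le (H T _ (R7.pl0 g.M) _ (hb L j) L h8 (show _ ≤ g.M by omega) (by linarith)
    (by positivity) _ _ b2) (mul_le_mul_of_nonneg_left b1 (by positivity)) z
  have h3 : 0 ≤ η * th L ^ j := (Nd.nonneg _ _).trans b1
  have h4 : η * th L ^ j ≤ Real.exp L * (η * th L ^ j) :=
    le_mul_of_one_le_left h3 (Real.one_le_exp (Nat.cast_nonneg L))
  refine le_trans ?_ ((add_le_add (b3 z) h1).trans (by linarith))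
  rw [← sum_add_distrib]
  refine sum_le_sum fun X hX => ?_
  obtain ⟨x, hx, -⟩ := (mem_filter.1 hX).2
  rw [← add_mul]
  refine mul_le_mul_of_nonneg_right ?_ (Real.exp_nonneg _)
  unfold bfT
  split_ifs with h5
  · obtain ⟨k1, k2⟩ := noB_leT hL hg hV hq.hV hq.hR hR j (hh.trans_le hh') hx h5
    have mo := fun (F : T.ι → g.E) (hF : ∀ i, F i ∈ g.sub X) => Nd.mono (g.sub X).toSubmodule hF
      fun F hF => RN.pn_mono (by omega : 1 ≤ sc L j) hh one_pos hh' le_rfl (Subset.refl X) hF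
    exact add_le_add ((mo _ fun i => RN.noB_mem ((wf_flow hg L _ 0 j).Kmem X)).trans k1)
      ((mo _ fun i => RN.noB_mem ((wf_flow hg L _ 0 j).car_mem X)).trans k2)
  · exact add_nonneg (PN_nonneg _ _) (PN_nonneg _ _)

/-- The bounds below the distance of the defects. -/
structure EOutT (T : Nd) (g : Geo) (L : ℕ) (q : T.ι → Par) (J : ℕ) (h : ℕ → ℝ) (δ a : ℝ) :
    Prop where
  z : ∀ j ≤ J, ∀ k, T.n abs (fun i => (g.flow L (q i) 0 j).z k) ≤ 2
  W0 : Anch 8 (2 * L) (fun U => PN T g 8 (h 0) (δ * (8 : ℕ) / h 0 ^ 2) U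
    fun i => g.W0 (q i) U - g.Wsrc (q i) U) a
  intg : ∀ j < J, Anch (sc L (j + 1)) (2 * L) (fun U => PN T g (sc L j) (h j / 2)
    (δ * sc L j / h j ^ 2) U fun i => g.intg (sc L j) (L * sc L j) (g.flow L (q i) 0 j) U -
      g.intg (sc L j) (L * sc L j) (g.srcSt (g.flow L (q i) 0 j).z) U) (a / 2 ^ j)

theorem early_allT : ∃ L₀ : ℕ, ∀ L ≥ L₀, ∃ δ > (0 : ℝ), ∃ η > (0 : ℝ), ∀ R : ℕ, ∃ δ₀ > 0,
    ∀ (V : Finset (ℤ × ℤ) → ℝ) (T : Nd) (q : T.ι → Par), P144.IsPotential V →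
      CritT L V R T q η δ₀ → ∀ g J h, Pre L R g J h → EOutT T g L q J h δ δ := by
  obtain ⟨L₀, hE⟩ := step_earlyT
  obtain ⟨Cb, hCb, hbf⟩ := ag_bfT
  refine ⟨max L₀ 16, fun L hL => ?_⟩
  have hL16 : 16 ≤ L := (le_max_right _ _).trans hL
  have hL1 : 1 ≤ L := by omega
  have hL0 : (0 : ℝ) < L := by positivity
  obtain ⟨C, hC, hSE⟩ := hE L ((le_max_left _ _).trans hL)
  obtain ⟨β₀, hβ₀, hI⟩ := init_earlyT (2 * L) ((L : ℝ) ^ 2) (by positivity) (by positivity)
  obtain ⟨Cd, hCd, hD⟩ := init_dfT L ((L : ℝ) ^ 2) (by positivity) (by positivity)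
  obtain ⟨δ, hδ, hδ2, hδ3⟩ : ∃ δ : ℝ, 0 < δ ∧ C * δ ≤ 1 ∧
      δ * (8 : ℕ) / ((L : ℝ) ^ 2) ^ 2 ≤ β₀ := by
    refine ⟨min (1 / C) (β₀ / 8), by positivity, ?_, ?_⟩
    · rw [mul_comm, ← le_div_iff₀ (by positivity)]
      exact min_le_left _ _
    · have h1 : (1 : ℝ) ≤ ((L : ℝ) ^ 2) ^ 2 := one_le_pow₀ (one_le_pow₀ (by exact_mod_cast hL1))
      refine (div_le_self (by positivity) h1).trans ?_
      have := min_le_right (1 / C) (β₀ / 8)
      push_cast
      linarith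
  set B := Cb * Real.exp L with hB
  have hB0 : 0 ≤ B := by positivity
  set A := C * (4 + Cd + 4 * (C * B) + B) with hA
  have hA1 : 4 + Cd + 4 * (C * B) + B ≤ A := le_mul_of_one_le_left (by positivity) hC
  have hCB : 0 ≤ C * B := by positivity
  obtain ⟨η, hη, hη1, hη2⟩ : ∃ η > (0 : ℝ), η ≤ 1 ∧ η * (2 * A) ≤ δ :=
    ⟨min 1 (δ / (2 * A)), by positivity, min_le_left _ _,
      (le_div_iff₀ (by positivity)).1 (min_le_right _ _)⟩
  refine ⟨δ, hδ, η, hη, fun R => ?_⟩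
  obtain ⟨Ci, hCi, hI⟩ := hI R
  have e : Ci * (η / Ci) = η := by field_simp
  refine ⟨η / Ci, by positivity, fun V T q hV hc g J h hp => ?_⟩
  have hi := hI T q V hc.hR hc.hV hc.ok (hc.w.trans (by norm_num)) _ hc.small (e.trans_le hη1) g
    hp.ok hp.on (fun k k' hk => by
      have := hp.sep.ss k k' hk
      have := eight_le_sc hL1 J
      omega) _ (by positivity) hδ3
  rw [e] at hi
  have h0 := hD T g hp.ok q η hc.c1 hc.c2 _ η (by positivity) hp.on
    (anch_tau hi (fun _ => PN_nonneg _ _) (by linarith))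
  rw [← hp.h0, ← add_mul] at h0
  obtain ⟨a, ha, ha0⟩ : ∃ a, (4 + Cd) * η = a ∧ 0 ≤ a := ⟨_, rfl, by positivity⟩
  obtain ⟨b, hb', hb⟩ : ∃ b, B * η = b ∧ 0 ≤ b := ⟨_, rfl, by positivity⟩
  have hz : 2 * (C * (a + 4 * (C * b) + b)) ≤ δ := by
    rw [← ha, ← hb']
    linarith
  rw [ha] at h0
  have hM : ∀ j ≤ J, 16 * sc L j ≤ g.M := fun j hj =>
    (Nat.mul_le_mul_left _ (sc_mono hL1 hj)).trans hp.M_le
  have hCb : 0 ≤ C * b := by positivity
  have hA : a + 4 * (C * b) + b ≤ δ := by nlinarith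
  have step : ∀ j < J, Anch (sc L j) L (dfT T g (sc L j) (h j) (δ * sc L j / h j ^ 2)
      (fun i => g.flow L (q i) 0 j) fun i => g.srcSt (g.flow L (q i) 0 j).z)
      ((a + 4 * (C * b) * (1 - 1 / 2 ^ j)) / 2 ^ j) →
      (∀ k, T.n abs (fun i => (g.flow L (q i) 0 j).z k) ≤ 2) → _ :=
    fun j hj hd hzz => hSE T g hp.ok.sign hp.on j (sc L j) (hj.trans_le hp.J_le) (eight_le_sc hL1 j)
      (by rw [← sc_succ]; exact hM _ hj)
      (by rw [← sc_succ]; exact sep_mono hp.sep (Nat.mul_le_mul_left _ (sc_mono hL1 hj)))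
      (h j) (h (j + 1)) δ (hp.lo j) (hp.h1 j hj) (hp.h2 j hj) hδ hδ2 _
      (fun i => Geo.wf_flow hp.ok L _ 0 j) hzz _ (b / 2 ^ j / 2 ^ j)
      ((rec_le hCb j).trans ((div_pow_le (by positivity) j).trans (by linarith)))
      ((div_pow_le (by positivity) j).trans ((div_pow_le hb j).trans (by linarith))) hd
      (anch_le (hbf L (by omega) V R T q η _ hV hc g hp.ok hp.R_le j (hM j hj.le) _ (hp.pos hL1 j)
        (hp.hi j)) (by
          rw [div_div, div_eq_mul_one_div, ← div_div, hb']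
          exact mul_le_mul_of_nonneg_left (th_pow hL16 j) hb))
  have hE : ∀ j : ℕ, C * ((a + 4 * (C * b) * (1 - 1 / 2 ^ j)) / 2 ^ j + b / 2 ^ j / 2 ^ j) ≤
      C * (a + 4 * (C * b) + b) / 2 ^ j := fun j => by
    rw [mul_div_assoc, add_div (a + 4 * (C * b))]
    exact mul_le_mul_of_nonneg_left (add_le_add (rec_le hCb j) (div_pow_le (by positivity) j))
      (by linarith)
  have key : ∀ j ≤ J, Anch (sc L j) L (dfT T g (sc L j) (h j) (δ * sc L j / h j ^ 2)
      (fun i => g.flow L (q i) 0 j) fun i => g.srcSt (g.flow L (q i) 0 j).z)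
      ((a + 4 * (C * b) * (1 - 1 / 2 ^ j)) / 2 ^ j) ∧
      ∀ k, T.n abs (fun i => (g.flow L (q i) 0 j).z k) ≤ 2 - 1 / 2 ^ j := by
    intro j hj
    induction j with
    | zero =>
      rw [sc_zero]
      refine ⟨anch_le h0 (by simp), fun k => ?_⟩
      simp only [flow, init, z0, hp.on k, if_true]
      rw [Nd.abs_cmul, abs_neg, abs_two]
      linarith [hc.w]
    | succ j ih =>
      obtain ⟨h1, h2⟩ := ih (by omega)
      have h3 : (0 : ℝ) ≤ 1 / 2 ^ j := by positivity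
      obtain ⟨s2, s3, -⟩ := step j (by omega) h1 fun k => (h2 k).trans (by linarith)
      simp only [← flow_succ] at s2 s3
      rw [← sc_succ] at s2
      refine ⟨anch_le s2 ?_, fun k => ?_⟩
      · rw [← rec_eq, mul_div_assoc, mul_div_assoc]
      · have h4 := (s3 k).trans (hE j)
        have h5 : C * (a + 4 * (C * b) + b) / 2 ^ j ≤ δ * (1 / 2 ^ (j + 1)) := by
          rw [pow_succ, div_le_iff₀ (by positivity)]
          field_simp
          linarith
        have h6 := le_of_mul_le_mul_left (h4.trans h5) hδ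
        have h7 : (1 : ℝ) / 2 ^ j = 2 * (1 / 2 ^ (j + 1)) := by rw [pow_succ]; field_simp
        have h8 := Nd.sn_abs.add' (T := T)
          (fun i => (g.flow L (q i) 0 (j + 1)).z k - (g.flow L (q i) 0 j).z k)
          fun i => (g.flow L (q i) 0 j).z k
        simp only [sub_add_cancel] at h8
        linarith [h2 k]
  have hz' := fun j hj k => ((key j hj).2 k).trans (sub_le_self _ (by positivity))
  refine ⟨hz', hp.h0 ▸ anch_le hi (by nlinarith), fun j hj => ?_⟩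
  rw [sc_succ]
  refine anch_le (step j hj (key j hj.le).1 (hz' j hj.le)).2.2 ((hE j).trans ?_)
  have : 0 ≤ C * (a + 4 * (C * b) + b) := by positivity
  gcongr
  linarith

end Vale.Agent.P144Z.AN
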