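import Vale.Agent.P144A.Cl
import Vale.Agent.P144Z.R7.Inc

/-!
The bulk step and the bulk flow for families.
-/

namespace Vale.Agent.P144Z.AN

open Finset Matrix Geo R7

theorem PN_Lin {T : Nd} {g : Geo} {ℓ : ℕ} {h β : ℝ} (a : R8.Ad g ℓ h β)
    {C : Matrix (Tor g.M × Fin 4) (Tor g.M × Fin 4) ℝ} (hC : Cᵀ = -C) {U : Finset g.P}
    (hE : ∀ F ∈ g.sub U, g.pn ℓ (h / 2) β U (evG (g.exM C) F) ≤ g.pn ℓ h β U F)
    {F : T.ι → g.E} (hF : ∀ i, F i ∈ g.sub U) :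
    PN T g ℓ (h / 2) β U (fun i => g.Lin C (F i)) ≤ 2 * PN T g ℓ h β U F :=
  tr1 (g.sub U).toSubmodule hF (lin_Lin C) zero_le_two fun v hv =>
    (a.half.sub_noF (evG_mem _ hC hv)).trans (mul_le_mul_of_nonneg_left (hE v hv) zero_le_two)

open Classical in
/-- The size of the extracted coefficients. -/
theorem extT : ∃ c : ℝ, 1 ≤ c ∧ ∀ (T : Nd) (g : Geo), Pl g → ∀ (ℓ ℓ' : ℕ) (h : ℝ), 8 ≤ ℓ →
    16 * ℓ ≤ g.M → 0 < h → ∀ F : T.ι → Finset g.P → g.E, (∀ i U, F i U ∈ g.sub U) →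
    ∀ (o : T.ι → g.P → g.E) (a : T.ι → ℝ × ℝ), (∀ i x, o i x = ∑ U ∈ univ.filter
      (fun U => x ∈ U ∧ g.Xtr ℓ ℓ' U), ((U.card : ℝ)⁻¹) • F i U) →
    (∀ i x, g.nu x (o i x) = (a i).1 ∧ g.ze x (o i x) = (a i).2) →
    T.n (fun c : ℝ × ℝ => h ^ 2 * (ℓ * |c.1| + |c.2|)) a ≤
      c * ∑ U ∈ univ.filter (fun U : Finset g.P => ∃ x ∈ U, tdist x 0 ≤ ℓ),
        PN T g ℓ (h / 2) 1 U fun i => F i U := by
  obtain ⟨Ce, hCe, He⟩ := exists_ext
  refine ⟨Ce, hCe, fun T g hg ℓ ℓ' h h8 hM h0 F hF o a ho ha => ?_⟩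
  let O : g.P → (Finset g.P → g.E) →ₗ[ℝ] g.E := fun x => ∑ U ∈ univ.filter
    (fun U => x ∈ U ∧ g.Xtr ℓ ℓ' U), ((U.card : ℝ)⁻¹) • LinearMap.proj U
  have hO : ∀ x G, O x G = ∑ U ∈ univ.filter (fun U => x ∈ U ∧ g.Xtr ℓ ℓ' U),
      ((U.card : ℝ)⁻¹) • G U := fun x G => by
    simp only [O, LinearMap.sum_apply, LinearMap.smul_apply, LinearMap.proj_apply]
  let A : g.P → (Finset g.P → g.E) →ₗ[ℝ] ℝ × ℝ := fun x => ((nuL g x).prod (zeL g x)) ∘ₗ O x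
  have hA : ∀ x G, A x G = (g.nu x (O x G), g.ze x (O x G)) := fun x G => by
    rw [← nuL_apply, ← zeL_apply]; rfl
  have hA' : ∀ i x, A x (F i) = a i := fun i x => by
    rw [hA, hO, ← ho, (ha i x).1, (ha i x).2]
  have hl : (0 : ℝ) < ℓ := by positivity
  rw [← funext fun i => hA' i 0]
  refine (Nd.tr ((Submodule.pi Set.univ fun U => (g.sub U).toSubmodule) ⊓
    ⨅ x, LinearMap.ker (A x - A 0)) (fun i => ⟨fun U _ => hF i U, (Submodule.mem_iInf _).2 fun x =>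
      by rw [LinearMap.mem_ker, LinearMap.sub_apply, hA', hA', sub_self]⟩) (A 0)
    (ψ := fun G => ∑ U ∈ univ.filter (fun U : Finset g.P => ∃ x ∈ U, tdist x 0 ≤ ℓ),
      g.pn ℓ (h / 2) 1 U (G U)) (by linarith : 0 ≤ Ce) fun G hG => ?_).trans
    (mul_le_mul_of_nonneg_left ((Nd.sum_le _ _ _).trans (le_of_eq (sum_congr rfl fun U _ =>
      (Nd.map (LinearMap.proj (R := ℝ) (φ := fun _ : Finset g.P => g.E) U) F).symm))) (by linarith))
  have h1 := He g hg ℓ ℓ' h h8 hM h0 G (fun U => hG.1 U trivial) 0 _ fun x => hO x G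
  have h2 : ∀ x, g.nu x (O x G) = (A 0 G).1 ∧ g.ze x (O x G) = (A 0 G).2 := fun x => by
    have h3 := (Submodule.mem_iInf _).1 hG.2 x
    rw [LinearMap.mem_ker, LinearMap.sub_apply, sub_eq_zero] at h3
    rw [← h3, hA]
    exact ⟨rfl, rfl⟩
  simp only [(h2 _).1, (h2 _).2, sum_const, nsmul_eq_mul,
    card_ball_eq _ (by omega : 2 * ℓ + 1 ≤ g.M)] at h1
  refine le_of_mul_le_mul_left ?_ (pow_pos hl 2)
  calc _ = h ^ 2 * (ℓ ^ 2 * (ℓ * |(A 0 G).1| + |(A 0 G).2|)) := by ring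
    _ ≤ _ := le_trans (by gcongr; push_cast; nlinarith) h1
    _ = _ := by ring

/-- The step without fluxes and sources. -/
theorem step_plT : ∃ L₀ : ℕ, ∀ L ≥ L₀, ∃ C : ℝ, 1 ≤ C ∧ ∀ (T : Nd) (g : Geo), Pl g →
    ∀ (j ℓ : ℕ) (h : ℝ), 8 ≤ ℓ → 16 * (L * ℓ) ≤ g.M → (L : ℝ) ^ 2 ≤ h → ∀ s : T.ι → g.St,
    (∀ i, g.Wf (s i)) → ∀ ε k : ℝ, C * ε ≤ 1 →
    Anch ℓ L (fun X => PN T g ℓ h 1 X fun i => (s i).H X) ε →
    Anch ℓ L (fun X => PN T g ℓ h 1 X fun i => (s i).K X) k →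
      (∀ d : T.ι → ℝ × ℝ, Anch (L * ℓ) L (fun X => PN T g (L * ℓ) (2 * h) 1 X
        fun i => (g.step j ℓ (L * ℓ) (d i) (s i)).K X) (th L / 4 * k + C * ε * ε)) ∧
      ∀ a : T.ι → ℝ × ℝ, (∀ i x, g.nu x (g.out ℓ (L * ℓ) (s i) x) = (a i).1 ∧
        g.ze x (g.out ℓ (L * ℓ) (s i) x) = (a i).2) →
        T.n (fun c : ℝ × ℝ => h ^ 2 * (ℓ * |c.1| + |c.2|)) a ≤ C * (k + ε * ε) := by
  classical
  obtain ⟨L₁, HP⟩ := R8.cl_P
  obtain ⟨L₂, HT⟩ := cl_PT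
  obtain ⟨Co, hCo, Ho⟩ := exists_tgt
  obtain ⟨Ce, hCe, He⟩ := extT
  have e6 : (1 : ℝ) ≤ Real.exp 6 := Real.one_le_exp (by norm_num)
  have eo : Co ≤ Real.exp 6 * Co := le_mul_of_one_le_left (by linarith) e6
  refine ⟨max (max L₁ L₂) ⌈(1600 * (Real.exp 6 * Co)) ^ 2⌉₊, fun L hL => ?_⟩
  have hL1 : (1600 * (Real.exp 6 * Co)) ^ 2 ≤ L := Nat.ceil_le.1 (le_of_max_le_right hL)
  have hL2 : 1600 * (Real.exp 6 * Co) ≤ √(L : ℝ) := Real.le_sqrt_of_sq_le hL1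
  have hL3 : 1600 * (Real.exp 6 * Co) ≤ L := by nlinarith
  have hL4 : 4 ≤ L := by exact_mod_cast (by linarith : (4 : ℝ) ≤ L)
  have hL5 : (1 : ℝ) ≤ L := by linarith
  have hsq : 0 < √(L : ℝ) := by linarith
  obtain ⟨C₀, hC₀, HP⟩ := HP L (le_of_max_le_left (le_of_max_le_left hL))
  obtain ⟨C₁, hC₁, H₁⟩ := HT L (le_of_max_le_right (le_of_max_le_left hL))
  have hC : C₁ ≤ (400 * (Real.exp 6 * Co) + 2 * Ce) * C₁ :=
    le_mul_of_one_le_left (by linarith) (by linarith)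
  refine ⟨(400 * (Real.exp 6 * Co) + 2 * Ce) * C₁, hC₁.trans hC,
    fun T g hg j ℓ h h8 hM hh s hs ε k hε a1 a4 => ?_⟩
  have hl : (8 : ℝ) ≤ ℓ := by exact_mod_cast h8
  have hll : 4 * ℓ ≤ L * ℓ := Nat.mul_le_mul_right _ hL4
  have h0 : 0 < h := by nlinarith
  have a : R8.Ad g ℓ h 1 := ⟨hg.sign, by omega, h0, one_pos⟩
  have a' : R8.Ad g (L * ℓ) (2 * h) 1 := ⟨hg.sign, by omega, by linarith, one_pos⟩
  have ε0 := G.anch_nonneg (fun X => PN_nonneg X _) a1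
  have k0 := G.anch_nonneg (fun X => PN_nonneg X _) a4
  have hCm := covP_anti (C.Dm_anti g.A) ℓ (L * ℓ)
  have b1 := (HP g ℓ h 1 a h8 hh).1
  have b3 := (H₁ T g ℓ h 1 a h8 hh s (fun _ => g.srcSt 0) hs (fun _ => (wf_srcSt 0).1) ε ε
    (le_trans (mul_le_mul_of_nonneg_right hC ε0) hε) a1 (anch_mono a1 (fun X => by
      simp only [R8.H_src_zero, PN_zero a]
      exact PN_nonneg _ _) le_rfl) (by simpa only [R8.H_src_zero, sub_zero] using a1)).1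
  clear H₁ HP
  set N : Finset g.P → T.ι → g.E := fun U i =>
    R8.NL g (covP (Dm g.A) ℓ (L * ℓ)) (s i) (g.srcSt 0) U with hN
  have mN : ∀ U i, N U i ∈ g.sub U := fun U i => R8.NL_mem hCm (hs i) (wf_srcSt 0).1 U
  have bΔ : ∀ U, PN T g ℓ (h / 2) 1 U (fun i => g.rem ℓ (L * ℓ) (s i) U) ≤
      2 * (PN T g ℓ h 1 U (fun i => (s i).K U) + PN T g ℓ (h / 2) 1 U (N U)) := fun U => by
    have e : (fun i => g.rem ℓ (L * ℓ) (s i) U) = fun i =>
        g.Lin (covP (Dm g.A) ℓ (L * ℓ)) ((s i).K U) + (N U i - g.noF (N U i)) := funext fun i => by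
      rw [rem_eq (hs i) _ _ U rfl, hN]
      simp only [R8.NL, Geo.Cl_zero, R8.H_src_zero, map_zero, sub_zero, Geo.Lin]
    rw [e]
    linarith [PN_add a.half (X := U) (fun i => g.Lin (covP (Dm g.A) ℓ (L * ℓ)) ((s i).K U))
      (fun i => N U i - g.noF (N U i)), PN_noF a.half (mN U),
      PN_Lin a hCm (b1 U) fun i => (hs i).Kmem U]
  have p0 := fun U => PN_nonneg (ℓ := ℓ) (h := h) (β := 1) U fun i => (s i).K U
  have n0 := fun U => PN_nonneg (ℓ := ℓ) (h := h / 2) (β := 1) U (N U)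
  have εε := mul_nonneg ε0 ε0
  have mΔ : ∀ U i, g.rem ℓ (L * ℓ) (s i) U ∈ (g.sub U).toSubmodule ⊓ LinearMap.ker g.noF :=
    fun U i => (hs i).rem_mem _ _ U
  have Ho' := fun U F hF h0' => Ho g hg L j ℓ h (by linarith) h8 hM h0 U F hF h0'
  refine ⟨fun d => ?_, fun c hc => ?_⟩
  · refine anch_mono (anch_tgt (c := 2 * Co) h8 (by omega) (by linarith)
      p0 n0 a4 b3 (g.tgt ℓ) (fun _ => rfl) (a := fun U => PN T g (L * ℓ) (2 * h) 1 (g.tgt ℓ U)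
        fun i => g.rem ℓ (L * ℓ) (s i) U - g.xtr j ℓ (L * ℓ) U (g.rem ℓ (L * ℓ) (s i) U))
      (fun X => ?_) (fun U hU hs => ?_) fun U hs => ?_) (fun X => le_rfl) (add_le_add ?_ ?_)
    · simp only [step]
      refine (PN_sum a' _ _).trans (le_of_eq ?_)
      refine sum_congr (by congr) fun U hU => ?_
      rw [(mem_filter.1 hU).2]
    · refine (tr1 _ (mΔ U) (lin_sub lin_id (lin_xtr U)) (by positivity) fun F hF =>
        (Ho' U F hF.1 hF.2).1 hU hs).trans ?_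
      exact (mul_le_mul_of_nonneg_left (bΔ U) (by positivity)).trans (le_of_eq (by ring))
    · refine (tr0 _ (mΔ U) (lin_sub lin_id (lin_xtr U)) fun F hF =>
        (Ho' U F hF.1 hF.2).2 hs).trans ?_
      exact (bΔ U).trans (mul_le_mul_of_nonneg_right (by linarith) (add_nonneg (p0 U) (n0 U)))
    · refine mul_le_mul_of_nonneg_right ?_ k0
      rw [th, div_le_div_iff₀ (by linarith) (by norm_num), inv_mul_eq_div, le_div_iff₀ hsq]
      nlinarith [Real.mul_self_sqrt (by linarith : (0 : ℝ) ≤ L)]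
    · nlinarith [mul_nonneg (mul_nonneg (by linarith : 0 ≤ Ce) (by linarith : 0 ≤ C₁)) εε]
  · have q1 := anch_plain le_rfl (by positivity) p0 a4 0
    have q2 := anch_plain (r := ℓ) (by omega) (by positivity) n0 b3 0
    refine (He T g hg ℓ (L * ℓ) h h8 (by omega) h0 (fun i => g.rem ℓ (L * ℓ) (s i))
      (fun i U => (mΔ U i).1) _ c (fun i x => rfl) hc).trans ?_
    refine (mul_le_mul_of_nonneg_left (sum_le_sum fun U _ => bΔ U) (by positivity)).trans ?_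
    rw [← mul_sum, sum_add_distrib]
    have : k + C₁ * ε * ε ≤ C₁ * (k + ε * ε) := by nlinarith
    calc _ ≤ Ce * (2 * (C₁ * (k + ε * ε))) :=
          mul_le_mul_of_nonneg_left (by linarith) (by positivity)
      _ = 2 * Ce * C₁ * (k + ε * ε) := by ring
      _ ≤ _ := by gcongr; linarith

theorem sn_wv (L j : ℕ) : Nd.Sn (wv L j) where
  add a b := by
    rw [wv, wv, wv, ← mul_add]
    refine mul_le_mul_of_nonneg_left ?_ (by positivity)
    have := mul_le_mul_of_nonneg_left (abs_add_le a.1 b.1) (Nat.cast_nonneg (α := ℝ) (sc L j))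
    simp only [Prod.fst_add, Prod.snd_add]
    linarith [abs_add_le a.2 b.2]
  smul c a := by
    simp only [wv, Prod.smul_fst, Prod.smul_snd, smul_eq_mul, abs_mul]
    ring

/-- The estimate for one step. -/
def OneT (L : ℕ) (C η : ℝ) : Prop :=
  ∀ (T : Nd) (g : Geo), Pl g → ∀ j, 16 * sc L (j + 1) ≤ g.M → ∀ (s : T.ι → g.St)
    (a : T.ι → ℝ × ℝ), (∀ i, g.Wf (s i)) →
    (∀ i x, (s i).v x = (a i).1 • g.O1 x + (a i).2 • g.O2 x) → T.n (wv L j) a ≤ η * th L ^ j →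
    Anch (sc L j) L (fun X => PN T g (sc L j) (hb L j) 1 X fun i => (s i).K X)
      (η / C * th L ^ j) →
    (∀ d : T.ι → ℝ × ℝ, Anch (sc L (j + 1)) L (fun X => PN T g (sc L (j + 1)) (hb L (j + 1)) 1 X
      fun i => (g.step j (sc L j) (sc L (j + 1)) (d i) (s i)).K X) (η / C * th L ^ (j + 1))) ∧
    ∀ b : T.ι → ℝ × ℝ, (∀ i x, g.nu x (g.out (sc L j) (sc L (j + 1)) (s i) x) = (b i).1 ∧
      g.ze x (g.out (sc L j) (sc L (j + 1)) (s i) x) = (b i).2) →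
      T.n (wv L j) b ≤ η / 4 * th L ^ j

/-- The size of the carried terms. -/
theorem carT : ∃ c : ℝ, 1 ≤ c ∧ ∀ (T : Nd) (g : Geo), Pl g → ∀ (ℓ : ℕ) (h τ : ℝ), 8 ≤ ℓ →
    4 * ℓ ≤ g.M → 0 < h → 0 ≤ τ → ∀ (s : T.ι → g.St) (a : T.ι → ℝ × ℝ),
    (∀ i x, (s i).v x = (a i).1 • g.O1 x + (a i).2 • g.O2 x) →
    Anch ℓ τ (fun X => PN T g ℓ h 1 X fun i => (s i).car X)
      (c * Real.exp τ * T.n (fun c : ℝ × ℝ => h ^ 2 * (ℓ * |c.1| + |c.2|)) a) := by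
  obtain ⟨C, hC, H⟩ := Geo.pn_local
  refine ⟨9 * C, by linarith, fun T g hg ℓ h τ h8 hM h0 hτ s a hs => ?_⟩
  have hl : (0 : ℝ) < ℓ := by exact_mod_cast (by omega : 0 < ℓ)
  have A : R8.Ad g ℓ h 1 := ⟨hg.sign, by omega, h0, one_pos⟩
  have := hg.emp
  refine anch_mono (anch_star (b := C / ℓ ^ 2 *
    T.n (fun c : ℝ × ℝ => h ^ 2 * (ℓ * |c.1| + |c.2|)) a) h8 hτ
    (mul_nonneg (by positivity) (Nd.nonneg _ _)) fun X => ?_) (fun _ => le_rfl)
    (le_of_eq (by field_simp))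
  simp only [Geo.St.car, univ_eq_empty (α := g.K), filter_empty, sum_empty, add_zero]
  refine (PN_sum A _ _).trans (sum_le_sum fun x hx => ?_)
  obtain ⟨b1, b2, -⟩ := H g hg.sign ℓ h 1 h8 hM h0 one_pos x (hg.flat _ _)
  simp only [hs]
  rw [← (mem_filter.1 hx).2]
  refine Nd.tr ⊤ (fun _ => trivial) ((LinearMap.toSpanSingleton ℝ _ (g.O1 x)).coprod
    (LinearMap.toSpanSingleton ℝ _ (g.O2 x))) (by positivity) fun c _ => ?_
  refine (A.add _ _ _).trans ?_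
  change g.pn ℓ h 1 _ (c.1 • g.O1 x) + g.pn ℓ h 1 _ (c.2 • g.O2 x) ≤ _
  rw [A.smul, A.smul]
  refine (add_le_add (mul_le_mul_of_nonneg_left b1 (abs_nonneg _))
    (mul_le_mul_of_nonneg_left b2 (abs_nonneg _))).trans (le_of_eq ?_)
  field_simp

theorem one_stepT : ∃ L₀ : ℕ, ∀ L ≥ L₀, ∃ C : ℝ, 1 ≤ C ∧ ∃ η₀ > 0, ∀ η, 0 ≤ η → η ≤ η₀ →
    OneT L C η := by
  obtain ⟨L₀, H⟩ := step_plT
  obtain ⟨c, hc, Hc⟩ := carT
  refine ⟨max L₀ 8, fun L hL => ?_⟩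
  obtain ⟨C, hC, H⟩ := H L (le_of_max_le_left hL)
  have hL1 : 1 ≤ L := by omega
  have t0 := th_pos hL1
  have t1 := th_le (by omega : 4 ≤ L)
  obtain ⟨B, hB, hB1⟩ : ∃ B, c * Real.exp L = B ∧ 1 ≤ B :=
    ⟨_, rfl, one_le_mul_of_one_le_of_one_le hc (Real.one_le_exp (by positivity))⟩
  refine ⟨8 * C, by linarith, th L / (256 * C ^ 2 * B ^ 2), by positivity,
    fun η η0 η1 T g hg j hM s a w1 v1 s1 k1 => ?_⟩
  have h8 := le_sc hL1 j
  have h1 : 1 ≤ sc L j := by omega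
  have hh : 0 < hb L j := one_pos.trans_le (one_le_hb hL1 j)
  have hll : sc L j ≤ L * sc L j := Nat.le_mul_of_pos_left _ hL1
  rw [sc_succ] at hM
  rw [sc_succ, hb_succ, pow_succ]
  have θ0 : 0 < th L ^ j := by positivity
  have θ1 : th L ^ j ≤ 1 := pow_le_one₀ t0.le (by linarith)
  generalize th L ^ j = θ at *
  have car := Hc T g hg _ _ L h8 (by omega) hh (by positivity) s a v1
  rw [hB] at car
  have aH : Anch (sc L j) L (fun X => PN T g (sc L j) (hb L j) 1 X fun i => (s i).H X)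
      (2 * B * η * θ) := anch_mono (anch_add k1 car)
    (fun X => PN_add ⟨hg.sign, h1, hh, one_pos⟩ _ _) (by
      have e1 : η / (8 * C) ≤ B * η :=
        (div_le_self η0 (by linarith)).trans (le_mul_of_one_le_left η0 hB1)
      have e2 := mul_le_mul_of_nonneg_left s1 (by linarith : 0 ≤ B)
      change _ + B * T.n (wv L j) a ≤ _
      nlinarith)
  have n1 : 256 * C ^ 2 * B ^ 2 * η ≤ th L := by
    rwa [le_div_iff₀ (by positivity), mul_comm] at η1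
  have n2 : C * (2 * B * η * θ) * (2 * B * η * θ) ≤ th L / (64 * C) * (η * θ) := by
    have e1 : 4 * C * B ^ 2 * η ≤ th L / (64 * C) := by
      rw [le_div_iff₀ (by positivity)]
      linarith
    calc _ = 4 * C * B ^ 2 * η * θ * (η * θ) := by ring
      _ ≤ th L / (64 * C) * 1 * (η * θ) := by gcongr
      _ = _ := by ring
  have n3 : C * (2 * B * η * θ) ≤ 1 := by
    have e1 : C * B ≤ (C * B) ^ 2 := le_self_pow₀ (one_le_mul_of_one_le_of_one_le hC hB1) two_ne_zero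
    calc _ = 2 * (C * B) * η * θ := by ring
      _ ≤ 2 * (C * B) ^ 2 * η * 1 := by gcongr
      _ ≤ _ := by nlinarith
  have key := H T g hg j _ _ h8 hM (le_hb hL1 j) s w1 _ _ n3 aH k1
  have ρθ : 0 ≤ η * θ := by positivity
  refine ⟨fun d => anch_mono (key.1 d) (fun _ => le_rfl) ?_, fun b hb' => ?_⟩
  · refine (add_le_add le_rfl n2).trans ?_
    have : 0 ≤ th L / C * (η * θ) := by positivity
    calc _ = 3 / 64 * (th L / C * (η * θ)) := by ring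
      _ ≤ 1 / 8 * (th L / C * (η * θ)) := by linarith
      _ = _ := by ring
  · refine (key.2 b hb').trans ?_
    calc _ = 1 / 8 * (η * θ) + C * (2 * B * η * θ) * (2 * B * η * θ) := by field_simp
      _ ≤ _ := by
        have : th L / (64 * C) ≤ 1 / 8 := by
          rw [div_le_iff₀ (by positivity)]
          linarith
        nlinarith

variable {L R : ℕ} {C C' η η' : ℝ} {T : Nd} {q : T.ι → Par} {d c : T.ι → ℕ → ℝ × ℝ}

theorem flowT (hL : 8 ≤ L) (hC : 1 ≤ C') (hη : 0 ≤ η') (H' : OneStep L C' η') (H : OneT L C η)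
    (D : ∀ i, Dat L C' η' (q i) (d i) (c i)) (hR : ∀ i, (q i).R = R)
    (hc : ∀ j, T.n (wv L j) (fun i => c i j) ≤ η * th L ^ j) (M : ℕ) [NeZero M]
    (h0 : Anch 8 L (fun X => PN T (geo0 M) 8 (L ^ 3) 1 X fun i => ((geo0 M).init (q i)).K X)
      (η / C)) (hM : 16 * (R + 1) ≤ M) (j : ℕ) (hj : 16 * sc L j ≤ M) :
    Anch (sc L j) L (fun X => PN T (geo0 M) (sc L j) (hb L j) 1 X
      fun i => ((geo0 M).flow L (q i) (d i) j).K X) (η / C * th L ^ j) := by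
  induction j with
  | zero => simpa [sc, hb, Geo.flow] using h0
  | succ j ih =>
    have hj' := sc_mono (by omega : 1 ≤ L) 1 j
    rw [add_comm] at hj'
    have G := fun i => good_flow hL hC hη H' (D i) M (hR i ▸ hM) j (by omega)
    exact (H T _ (pl0 M) j hj _ _ (fun i => (G i).wf) (fun i => (G i).v) (hc j)
      (ih (by omega))).1 _

theorem incT (hL : 8 ≤ L) (hC : 1 ≤ C') (hη : 0 ≤ η') (H' : OneStep L C' η') (H : OneT L C η)
    (D : ∀ i, Dat L C' η' (q i) (d i) (c i)) (hR : ∀ i, (q i).R = R)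
    (hc : ∀ j, T.n (wv L j) (fun i => c i j) ≤ η * th L ^ j) (h0 : ∀ (M : ℕ) [NeZero M],
      Anch 8 L (fun X => PN T (geo0 M) 8 (L ^ 3) 1 X fun i => ((geo0 M).init (q i)).K X) (η / C))
    (j : ℕ) : T.n (wv L j) (fun i => inc L (q i) (d i) j) ≤ η / 4 * th L ^ j := by
  have hj' := sc_mono (by omega : 1 ≤ L) 1 j
  rw [add_comm] at hj'
  obtain ⟨M, hM, h1, h2⟩ : ∃ M, M ≠ 0 ∧ 16 * (R + 1) ≤ M ∧ 16 * sc L (j + 1) ≤ M :=
    ⟨16 * (R + 1) + 16 * sc L (j + 1), by omega, by omega, by omega⟩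
  have : NeZero M := ⟨hM⟩
  have G := fun i => good_flow hL hC hη H' (D i) M (hR i ▸ h1) j (by omega)
  exact (H T _ (pl0 M) j h2 _ _ (fun i => (G i).wf) (fun i => (G i).v) (hc j)
    (flowT hL hC hη H' H D hR hc M (h0 M) h1 j (by omega))).2 _ fun i x =>
    coef_of_Ext (pl0 M) (by change 8 ≤ M; omega) (inc_spec hL (D i).ok (d i) j M (hR i ▸ h1) h2 x)

end Vale.Agent.P144Z.AN
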