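import Vale.Agent.P144D.Tame

/-!
Locally uniform convergence of the rescaled correlations.
-/

namespace Vale.Agent.P144Z

open Filter Topology Vale.Agent.P144

/-- The difference of the rescaled correlations tends to zero, locally uniformly on the set of
configurations of distinct points of `D`. -/
def LocDiff (D : Set ℂ) (E₀ E : Fam) (Zσ Zε : ℝ) : Prop :=
  ∀ (n m : ℕ) (j : Fin m → Fin 2), TendstoLocallyUniformlyOn
    (fun (a : ℝ) (z : (Fin n → ℂ) × (Fin m → ℂ)) =>
      corr a (E a) ⟨n, m, z.1, z.2, j⟩ - Zσ ^ n * Zε ^ m * corr a (E₀ a) ⟨n, m, z.1, z.2, j⟩)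
    0 (𝓝[>] 0) {z | Good D ⟨n, m, z.1, z.2, j⟩}

end Vale.Agent.P144Z
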